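import Vale.Agent.P247.H880.ILb

/-!
# P247, Stage 2, S2-IL: `IL_statement` (Stokes for spinors, integrated Lichnerowicz formula)
-/

open scoped ContDiff Topology
open Set MeasureTheory Filter Metric

noncomputable section

namespace Vale.Agent.P247.H880

open Vale.Agent.P247.H74 Vale.Agent.P247.H574 Vale.Agent.P247.H647

theorem mm_half (X : Fin 4 → Fin 4 → Sp) : ∑ c, ∑ a, mm c a (X c a) =
    (1 / 2 : ℂ) • ∑ c, ∑ a, mm c a (X c a - X a c) := by
  have h : ∑ c, ∑ a, mm c a (X a c) = - ∑ c, ∑ a, mm c a (X c a) := by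
    rw [Finset.sum_comm, ← Finset.sum_neg_distrib]
    refine Finset.sum_congr rfl fun c _ => ?_
    rw [← Finset.sum_neg_distrib]
    refine Finset.sum_congr rfl fun a _ => ?_
    rw [mm_anti a c]
    simp
  simp only [map_sub, Finset.sum_sub_distrib, h]
  module

variable {D : Data} (Q : Quat D)

/-- the first half: Stokes for the Dirac operator -/
theorem stokes {A : R4 → R4 →L[ℝ] ℝ} {φ χ : R4 → Sp} (hA : ContDiff ℝ ∞ A)
    (hφ : ContDiff ℝ ∞ φ) (hφ' : QS φ) (hχ : ContDiff ℝ ∞ χ) (hχ' : QS χ) :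
    ∫ x in cube, inner ℂ (φ x) (Q.dirac A χ x) =
      - ∫ x in cube, ∑ c, inner ℂ (cov A φ x (Q.b c x) + (dv (Q.b c) x : ℂ) • φ x)
        (sig c (χ x)) := by
  have hn : (∞ : WithTop ℕ∞) ≠ 0 := by simp
  have hs : ∀ c, ContDiff ℝ ∞ fun x => sig c (χ x) := fun c =>
    ((sig c).restrictScalars ℝ).contDiff.comp hχ
  have hs' : ∀ c, QS fun x => sig c (χ x) := fun c k x => by
    show sig c (χ (tr k x)) = _
    rw [hχ' k x, map_smul]
  have h := fun c => ibp_sec (A := A) hφ (hs c) hA hφ' (hs' c) (Q.b_smooth c) (Q.b_per c)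
  have e1 : ∀ x, inner ℂ (φ x) (Q.dirac A χ x) =
      ∑ c, inner ℂ (φ x) (cov A (fun y => sig c (χ y)) x (Q.b c x)) := by
    intro x
    rw [Quat.dirac, inner_sum]
    refine Finset.sum_congr rfl fun c _ => ?_
    rw [cov_clm A (sig c) (hχ.differentiable hn)]
  simp only [e1]
  have c1 : ∀ c, IntegrableOn (fun x => inner ℂ (φ x)
      (cov A (fun y => sig c (χ y)) x (Q.b c x))) cube := fun c =>
    (hφ.continuous.inner (contDiff_cov hA (hs c) (Q.b_smooth c)).continuous).integrableOn_Icc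
  have c2 : ∀ c, IntegrableOn (fun x => inner ℂ (cov A φ x (Q.b c x) + (dv (Q.b c) x : ℂ) • φ x)
      (sig c (χ x))) cube := fun c =>
    (((contDiff_cov hA hφ (Q.b_smooth c)).add
      ((Complex.ofRealCLM.contDiff.comp (contDiff_dv (Q.b_smooth c))).smul hφ)).continuous.inner
      (hs c).continuous).integrableOn_Icc
  rw [integral_finsetSum _ fun c _ => c1 c, integral_finsetSum _ fun c _ => c2 c,
    ← Finset.sum_neg_distrib]
  exact Finset.sum_congr rfl fun c _ => h c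

/-- the pointwise algebra of the Lichnerowicz formula -/
theorem pointwise {A : R4 → R4 →L[ℝ] ℝ} {φ : R4 → Sp} (hA : ContDiff ℝ ∞ A)
    (hφ : ContDiff ℝ ∞ φ) (x : R4) :
    ∑ c, (cov A (fun y => ∑ a, mm c a (cov A φ y (Q.b a y))) x (Q.b c x) +
      (dv (Q.b c) x : ℂ) • ∑ a, mm c a (cov A φ x (Q.b a x))) =
    ∑ k, (Q.Fh A x k : ℂ) • pau k (φ x) - ∑ d, BB Q d x (cov A φ x (Q.b d x)) := by
  have hn : (∞ : WithTop ℕ∞) ≠ 0 := by simp
  have hd : ∀ a, ContDiff ℝ ∞ fun y => cov A φ y (Q.b a y) := fun a =>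
    contDiff_cov hA hφ (Q.b_smooth a)
  have hm : ∀ c a, Differentiable ℝ fun y => mm c a (cov A φ y (Q.b a y)) := fun c a =>
    (((mm c a).restrictScalars ℝ).contDiff.comp (hd a)).differentiable hn
  set X : Fin 4 → Fin 4 → Sp := fun c a => cov A (fun y => cov A φ y (Q.b a y)) x (Q.b c x) with hX
  set Φ : Fin 4 → Sp := fun a => cov A φ x (Q.b a x) with hΦ
  have h1 : ∀ c, cov A (fun y => ∑ a, mm c a (cov A φ y (Q.b a y))) x (Q.b c x) =
      ∑ a, mm c a (X c a) := by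
    intro c
    rw [cov_sum A _ (hm c)]
    exact Finset.sum_congr rfl fun a _ => cov_clm A (mm c a) ((hd a).differentiable hn) _ _
  have h2 : ∀ c a, X c a - X a c = ∑ d, (co Q x (lie Q c a x) d : ℂ) • Φ d -
      (Complex.I * (dd A x (Q.b c x) (Q.b a x) : ℂ)) • φ x := by
    intro c a
    rw [hX, cov_comm hA hφ (Q.b_smooth c) (Q.b_smooth a) x]
    congr 1
    show cov A φ x (lie Q c a x) = _
    conv_lhs => rw [co_spec Q x (lie Q c a x)]
    exact cov_lin A φ x _ _ _
  have h3 : ∑ c, ∑ a, mm c a ((Complex.I * (dd A x (Q.b c x) (Q.b a x) : ℂ)) • φ x) =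
      (-2 : ℂ) • ∑ k, (Q.Fh A x k : ℂ) • pau k (φ x) := by
    have := mm_curv (fr (fun a => Q.b a x) (fun u v => dd A x u v)) (fun a c => by
      simp [fr, dd])
    have h := congrArg (fun T : En => Complex.I • T (φ x)) this
    simp only [sum_apply, smul_apply, smul_smul, Finset.smul_sum] at h
    rw [Finset.smul_sum]
    simp only [map_smul, smul_smul]
    simp only [fr] at h
    rw [h]
    refine Finset.sum_congr rfl fun k _ => ?_
    congr 1
    rw [Quat.Fh]
    linear_combination (2 * (hat (fr (fun a => Q.b a x) fun u v => dd A x u v) k : ℂ)) *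
      Complex.I_mul_I
  have h4 : ∑ c, ∑ a, mm c a (∑ d, (co Q x (lie Q c a x) d : ℂ) • Φ d) =
      ∑ d, (∑ c, ∑ a, (co Q x (lie Q c a x) d : ℂ) • mm c a) (Φ d) := by
    simp only [sum_apply, map_sum, smul_apply, map_smul]
    rw [Finset.sum_comm' (t' := Finset.univ) (s' := fun _ => Finset.univ) (by simp)]
    conv_rhs => rw [Finset.sum_comm]
    conv_lhs => rw [Finset.sum_comm]
    refine Finset.sum_congr rfl fun c _ => ?_
    rw [Finset.sum_comm]
  rw [Finset.sum_add_distrib]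
  simp only [h1]
  rw [mm_half]
  simp only [h2, map_sub, Finset.sum_sub_distrib]
  rw [h3, h4]
  have h5 : ∑ c, (dv (Q.b c) x : ℂ) • ∑ a, mm c a (Φ a) =
      ∑ d, (∑ c, (dv (Q.b c) x : ℂ) • mm c d) (Φ d) := by
    simp only [sum_apply, smul_apply, Finset.smul_sum]
    rw [Finset.sum_comm]
  rw [h5]
  have h6 : ∑ d, BB Q d x (Φ d) =
      -((1 / 2 : ℂ) • ∑ d, (∑ c, ∑ a, (co Q x (lie Q c a x) d : ℂ) • mm c a) (Φ d)) -
      ∑ d, (∑ c, (dv (Q.b c) x : ℂ) • mm c d) (Φ d) := by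
    rw [Finset.smul_sum, ← Finset.sum_neg_distrib, ← Finset.sum_sub_distrib]
    rfl
  rw [h6]
  module

/-- `IL_statement` -/
theorem IL : IL_statement := by
  intro D Q
  refine ⟨fun c => dv (Q.b c), BB Q, fun c => contDiff_dv (Q.b_smooth c),
    fun c => per_dv (Q.b_per c), contDiff_BB Q, per_BB Q, ?_⟩
  intro A φ χ hA hA' hφ hφ' hχ hχ'
  have hn : (∞ : WithTop ℕ∞) ≠ 0 := by simp
  refine ⟨stokes Q hA hφ hφ' hχ hχ', ?_⟩
  have hd : ∀ a, ContDiff ℝ ∞ fun y => cov A φ y (Q.b a y) := fun a =>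
    contDiff_cov hA hφ (Q.b_smooth a)
  have hd' : ∀ a, QS fun y => cov A φ y (Q.b a y) := fun a =>
    qs_cov hA' hφ' (hφ.differentiable hn) (Q.b_per a)
  have hx : ∀ a, ContDiff ℝ ∞ fun y => cov A χ y (Q.b a y) := fun a =>
    contDiff_cov hA hχ (Q.b_smooth a)
  have hP : ∀ c, ContDiff ℝ ∞ fun y => ∑ a, mm c a (cov A φ y (Q.b a y)) := fun c =>
    ContDiff.sum fun a _ => ((mm c a).restrictScalars ℝ).contDiff.comp (hd a)
  have hP' : ∀ c, QS fun y => ∑ a, mm c a (cov A φ y (Q.b a y)) := fun c k x => by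
    show ∑ a, mm c a (cov A φ (tr k x) (Q.b a (tr k x))) = _
    rw [Finset.smul_sum]
    refine Finset.sum_congr rfl fun a _ => ?_
    have := hd' a k x
    simp only at this
    rw [this, map_smul]
  have h := fun c => ibp_sec (A := A) (hP c) hχ hA (hP' c) hχ' (Q.b_smooth c) (Q.b_per c)
  -- the left side, pointwise
  have e1 : ∀ x, inner ℂ (Q.dirac A φ x) (Q.dirac A χ x) =
      (∑ c, inner ℂ (cov A φ x (Q.b c x)) (cov A χ x (Q.b c x))) +
      ∑ c, inner ℂ (∑ a, mm c a (cov A φ x (Q.b a x))) (cov A χ x (Q.b c x)) := by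
    intro x
    simp only [Quat.dirac, sum_inner, inner_sum, sig_inner, Finset.sum_add_distrib]
    refine congrArg₂ (· + ·) (Finset.sum_congr rfl fun a _ => ?_) rfl
    simp
  simp only [e1]
  have c1 : IntegrableOn (fun x => ∑ c, inner ℂ (cov A φ x (Q.b c x)) (cov A χ x (Q.b c x))) cube :=
    (continuous_finsetSum _ fun c _ => (hd c).continuous.inner (hx c).continuous).integrableOn_Icc
  have c2 : ∀ c, IntegrableOn (fun x => inner ℂ (∑ a, mm c a (cov A φ x (Q.b a x)))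
      (cov A χ x (Q.b c x))) cube := fun c =>
    ((hP c).continuous.inner (hx c).continuous).integrableOn_Icc
  have c3 : ∀ c, Continuous (fun x => inner ℂ (cov A (fun y => ∑ a, mm c a (cov A φ y (Q.b a y))) x
      (Q.b c x) + (dv (Q.b c) x : ℂ) • ∑ a, mm c a (cov A φ x (Q.b a x))) (χ x)) := fun c =>
    ((contDiff_cov hA (hP c) (Q.b_smooth c)).add
      ((Complex.ofRealCLM.contDiff.comp (contDiff_dv (Q.b_smooth c))).smul
        (hP c))).continuous.inner hχ.continuous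
  have c3' : ∀ c, IntegrableOn (fun x => inner ℂ (cov A (fun y => ∑ a, mm c a
      (cov A φ y (Q.b a y))) x (Q.b c x) + (dv (Q.b c) x : ℂ) • ∑ a, mm c a
      (cov A φ x (Q.b a x))) (χ x)) cube := fun c => (c3 c).integrableOn_Icc
  have c4 : IntegrableOn (fun x => ∑ c, inner ℂ (cov A (fun y => ∑ a, mm c a
      (cov A φ y (Q.b a y))) x (Q.b c x) + (dv (Q.b c) x : ℂ) • ∑ a, mm c a
      (cov A φ x (Q.b a x))) (χ x)) cube :=
    (continuous_finsetSum _ fun c _ => c3 c).integrableOn_Icc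
  have e2 : ∫ x in cube, ∑ c, inner ℂ (∑ a, mm c a (cov A φ x (Q.b a x))) (cov A χ x (Q.b c x)) =
      - ∫ x in cube, ∑ c, inner ℂ (cov A (fun y => ∑ a, mm c a (cov A φ y (Q.b a y))) x (Q.b c x) +
        (dv (Q.b c) x : ℂ) • ∑ a, mm c a (cov A φ x (Q.b a x))) (χ x) := by
    rw [integral_finsetSum _ fun c _ => c2 c, integral_finsetSum _ fun c _ => c3' c,
      ← Finset.sum_neg_distrib]
    exact Finset.sum_congr rfl fun c _ => h c
  have c5 : IntegrableOn (fun x => ∑ c, inner ℂ (∑ a, mm c a (cov A φ x (Q.b a x)))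
      (cov A χ x (Q.b c x))) cube :=
    (continuous_finsetSum _ fun c _ => (hP c).continuous.inner (hx c).continuous).integrableOn_Icc
  have c6 : IntegrableOn (fun x => -∑ c, inner ℂ (cov A (fun y => ∑ a, mm c a
      (cov A φ y (Q.b a y))) x (Q.b c x) + (dv (Q.b c) x : ℂ) • ∑ a, mm c a
      (cov A φ x (Q.b a x))) (χ x)) cube := c4.neg
  rw [integral_add c1 c5, e2, ← integral_neg, ← integral_add c1 c6]
  refine integral_congr_ae (Eventually.of_forall fun x => ?_)
  show (∑ c, inner ℂ (cov A φ x (Q.b c x)) (cov A χ x (Q.b c x))) +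
    -(∑ c, inner ℂ (cov A (fun y => ∑ a, mm c a (cov A φ y (Q.b a y))) x (Q.b c x) +
        (dv (Q.b c) x : ℂ) • ∑ a, mm c a (cov A φ x (Q.b a x))) (χ x)) = _
  rw [← sum_inner, pointwise Q hA hφ x, inner_sub_left, sum_inner, sum_inner]
  simp only [inner_smul_left, Complex.conj_ofReal]
  ring

end Vale.Agent.P247.H880
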