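import Vale.Agent.P247.H880.Cob

/-!
# P247, S1, E3: the range, `RNG_statement`
-/

open scoped ContDiff Topology ComplexConjugate
open Set MeasureTheory Filter Metric

noncomputable section

namespace Vale.Agent.P247.H880.Co

open Vale.Agent.P247.H74 Vale.Agent.P247.H574 Vale.Agent.P247.H647 Vale.Agent.P247.H957
  Vale.Agent.P247.H94 Vale.Agent.P247.H350.E3 Vale.Agent.P247.H350

/-! ## Signature -/

/-- on the orthogonal complement of a positive three-space the form is non-positive -/
theorem signature {k : Fin 3 → Fin 4 → Fin 4 → ℝ} (hk : ∀ l i j, k l j i = - k l i j)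
    (hpos : ∀ v : Fin 3 → ℝ, v ≠ 0 →
      0 < W (fun i j => ∑ l, v l * k l i j) (fun i j => ∑ l, v l * k l i j))
    {A : Fin 4 → Fin 4 → ℝ} (hA : ∀ i j, A j i = - A i j) (hort : ∀ l, W (k l) A = 0) :
    W A A ≤ 0 := by
  by_contra hcon
  push Not at hcon
  let E : (Fin 4 → ℝ) → Fin 4 → Fin 4 → ℝ := fun s i j =>
    ∑ l : Fin 3, s l.castSucc * k l i j + s 3 * A i j
  let L : (Fin 4 → ℝ) →ₗ[ℝ] (Fin 3 → ℝ) :=
    { toFun := fun s => hat (E s)
      map_add' := by
        intro s t
        funext a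
        fin_cases a <;> simp [hat, E, Finset.sum_add_distrib, add_mul] <;> ring
      map_smul' := by
        intro c s
        funext a
        fin_cases a <;> simp [hat, E, Fin.sum_univ_three] <;> ring }
  have hker : LinearMap.ker L ≠ ⊥ := LinearMap.ker_ne_bot_of_finrank_lt (by simp)
  obtain ⟨s, hs, hs0⟩ := (Submodule.ne_bot_iff _).1 hker
  have hL : hat (E s) = 0 := hs
  have h0 : E s 0 1 + E s 2 3 = 0 := congrFun hL 0
  have h1 : E s 0 2 + E s 3 1 = 0 := congrFun hL 1
  have h2 : E s 0 3 + E s 1 2 = 0 := congrFun hL 2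
  have h31 : E s 3 1 = - E s 1 3 := by
    simp only [E, hk _ 1 3, hA 1 3, Fin.sum_univ_three]
    ring
  have hW : W (E s) (E s) = -2 * (E s 0 1 ^ 2 + E s 0 2 ^ 2 + E s 0 3 ^ 2) := by
    have e23 : E s 2 3 = - E s 0 1 := by linarith
    have e13 : E s 1 3 = E s 0 2 := by linarith
    have e12 : E s 1 2 = - E s 0 3 := by linarith
    unfold W
    rw [e23, e13, e12]
    ring
  have hW2 : W (E s) (E s) = W (fun i j => ∑ l : Fin 3, s l.castSucc * k l i j)
      (fun i j => ∑ l : Fin 3, s l.castSucc * k l i j) + s 3 ^ 2 * W A A +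
      2 * s 3 * ∑ l : Fin 3, s l.castSucc * W (k l) A := by
    simp only [W, E, Fin.sum_univ_three]
    ring
  rw [Finset.sum_eq_zero (fun l _ => by rw [hort l, mul_zero]), mul_zero, add_zero] at hW2
  have hle : W (E s) (E s) ≤ 0 := by
    rw [hW]
    nlinarith [sq_nonneg (E s 0 1), sq_nonneg (E s 0 2), sq_nonneg (E s 0 3)]
  by_cases hv : (fun l : Fin 3 => s l.castSucc) = 0
  · have hs3 : s 3 ≠ 0 := by
      intro h3
      apply hs0
      funext i
      refine Fin.lastCases ?_ (fun l => ?_) i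
      · exact h3
      · exact congrFun hv l
    have e0 : W (fun i j => ∑ l : Fin 3, s l.castSucc * k l i j)
      (fun i j => ∑ l : Fin 3, s l.castSucc * k l i j) = 0 := by
      have : ∀ l : Fin 3, s l.castSucc = 0 := fun l => congrFun hv l
      simp only [this, zero_mul, Finset.sum_const_zero, W]
      ring
    rw [e0, zero_add] at hW2
    have : 0 < s 3 ^ 2 * W A A := mul_pos (by positivity) hcon
    linarith
  · have h3 := hpos _ hv
    have h4 : 0 ≤ s 3 ^ 2 * W A A := mul_nonneg (sq_nonneg _) hcon.le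
    linarith

/-! ## Combinations of the triple with coefficients in `H` -/

/-- the form `∑ yₗ triₗ` -/
def bt (D : Data) (y : Fin 3 → H) (i j : Fin 4) : H := ∑ l, mulOp (tc D l i j) (y l)

theorem bt_ae (D : Data) (y : Fin 3 → H) (i j : Fin 4) :
    bt D y i j =ᵐ[mQ] fun x => ∑ l, y l x * tc D l i j x := by
  have h := rep_sum Finset.univ (w := fun l => mulOp (tc D l i j) (y l))
    (φ := fun l x => tc D l i j x * y l x) fun l _ => mulOp_ae (tc_cont D l i j) (y l)
  refine EventuallyEq.trans h (Eventually.of_forall fun x => ?_)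
  exact Finset.sum_congr rfl fun l _ => mul_comm _ _

theorem tc_anti (D : Data) (l : Fin 3) (i j : Fin 4) (x : R4) : tc D l j i x = - tc D l i j x := by
  have hs := (tri D l).κ_self
  have h := hs (e i + e j)
  simp only [map_add, add_apply, hs, zero_add, add_zero] at h
  unfold tc CForm.val
  have : (tri D l).κ (e j) (e i) = - (tri D l).κ (e i) (e j) := by linarith
  rw [this]
  push_cast
  ring

theorem bt_anti (D : Data) (y : Fin 3 → H) : Anti (bt D y) := by
  intro i j
  refine Lp.ext ?_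
  filter_upwards [bt_ae D y i j, bt_ae D y j i, Lp.coeFn_neg (bt D y i j)] with x h1 h2 h3
  rw [h2, h3, Pi.neg_apply, h1]
  simp only [tc_anti D _ i j, mul_neg, Finset.sum_neg_distrib]

theorem bt_sub (D : Data) (y z : Fin 3 → H) (i j : Fin 4) :
    bt D (y - z) i j = bt D y i j - bt D z i j := by
  simp only [bt, Pi.sub_apply, map_sub, Finset.sum_sub_distrib]

theorem cf_sub (v w : H) (n : Fin 4 → ℤ) : cf (v - w) n = cf v n - cf w n := by
  rw [← inner_chH, ← inner_chH, ← inner_chH, inner_sub_right]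

theorem cf_sum {ι : Type*} (s : Finset ι) (w : ι → H) (n : Fin 4 → ℤ) :
    cf (∑ i ∈ s, w i) n = ∑ i ∈ s, cf (w i) n := by
  rw [← inner_chH, inner_sum]
  exact Finset.sum_congr rfl fun i _ => inner_chH _ _

theorem cf_smul (c : ℂ) (w : H) (n : Fin 4 → ℤ) : cf (c • w) n = c * cf w n := by
  rw [← inner_chH, ← inner_chH, inner_smul_right]

theorem clo_sub {η ζ : Fin 4 → Fin 4 → H} (h1 : Clo η) (h2 : Clo ζ) :
    Clo fun i j => η i j - ζ i j := by
  intro n i j l
  simp only [cf_sub]
  linear_combination h1 n i j l - h2 n i j l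

/-- positivity -/
theorem posy {D : Data} (Q : Quat D) : ∃ K : ℝ, 0 < K ∧ ∀ y : Fin 3 → H,
    ∑ l, ‖y l‖ ^ 2 ≤ K * (wH (bt D y) (bt D y)).re := by
  obtain ⟨K, hK, hpt⟩ := gram_pos Q
  refine ⟨K, hK, fun y => ?_⟩
  obtain ⟨hi, he⟩ := wH_int (bt D y) (bt D y)
  have hre : (wH (bt D y) (bt D y)).re =
      ∫ x, (W (fun i j => conj (bt D y i j x)) (fun i j => bt D y i j x)).re ∂mQ := by
    rw [he]
    exact (integral_re hi).symm
  have hb : ∀ᵐ x ∂mQ, ∀ i j, bt D y i j x = ∑ l, y l x * tc D l i j x := by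
    rw [ae_all_iff]; intro i
    rw [ae_all_iff]; intro j
    exact bt_ae D y i j
  have hineq : ∀ᵐ x ∂mQ, ∑ l, ‖y l x‖ ^ 2 ≤
      K * (W (fun i j => conj (bt D y i j x)) (fun i j => bt D y i j x)).re := by
    filter_upwards [hb] with x hx
    have := hpt x (fun l => y l x)
    simp only [hx]
    exact this
  have iL : Integrable (fun x => ∑ l, ‖y l x‖ ^ 2) mQ :=
    integrable_finsetSum _ fun l _ => (norm_sq_int _).1
  have iR : Integrable (fun x => K *
      (W (fun i j => conj (bt D y i j x)) (fun i j => bt D y i j x)).re) mQ :=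
    (hi.re).const_mul K
  have h3 := integral_mono_ae iL iR hineq
  rw [integral_const_mul, integral_finsetSum _ fun l _ => (norm_sq_int (y l)).1, ← hre] at h3
  refine le_trans (le_of_eq ?_) h3
  exact Finset.sum_congr rfl fun l _ => (norm_sq_int _).2

/-! ## Constant coefficients -/

/-- the arrays of the constant parts -/
def ka (D : Data) (l : Fin 3) (i j : Fin 4) : ℝ := (tri D l).κ (e i) (e j)

theorem ka_anti (D : Data) (l : Fin 3) (i j : Fin 4) : ka D l j i = - ka D l i j := by
  have hs := (tri D l).κ_self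
  have h := hs (e i + e j)
  simp only [map_add, add_apply, hs, zero_add, add_zero] at h
  unfold ka
  linarith

/-- components of the primitive -/
def lc (D : Data) (l : Fin 3) (j : Fin 4) (x : R4) : ℂ := ((tri D l).lam x (e j) : ℂ)

theorem lc_smooth (D : Data) (l : Fin 3) (j : Fin 4) : ContDiff ℝ ∞ (lc D l j) := by
  unfold lc
  exact Complex.ofRealCLM.contDiff.comp ((tri D l).lam_smooth.clm_apply contDiff_const)

theorem lc_per (D : Data) (l : Fin 3) (j : Fin 4) : FF.Pr (lc D l j) := by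
  intro n x
  simp only [lc, (tri D l).lam_per n x]

theorem lc_fderiv (D : Data) (l : Fin 3) (i j : Fin 4) (x : R4) :
    fderiv ℝ (lc D l j) x (Pi.single i 1) = ((fderiv ℝ (tri D l).lam x (e i) (e j) : ℝ) : ℂ) := by
  have hn : (∞ : WithTop ℕ∞) ≠ 0 := by simp
  have h1 : HasFDerivAt (fun x => (tri D l).lam x (e j))
      ((fderiv ℝ (tri D l).lam x).flip (e j)) x := by
    have := ((tri D l).lam_smooth.differentiable hn x).hasFDerivAt.clm_apply
      (hasFDerivAt_const (e j) x)
    simpa using this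
  have h2 : HasFDerivAt (lc D l j) (Complex.ofRealCLM.comp ((fderiv ℝ (tri D l).lam x).flip (e j)))
      x := Complex.ofRealCLM.hasFDerivAt.comp x h1
  rw [h2.fderiv]
  rfl

theorem tc_eq (D : Data) (l : Fin 3) (i j : Fin 4) (x : R4) : tc D l i j x =
    (ka D l i j : ℂ) + (fderiv ℝ (lc D l j) x (Pi.single i 1) -
      fderiv ℝ (lc D l i) x (Pi.single j 1)) := by
  rw [lc_fderiv, lc_fderiv]
  unfold tc CForm.val ka
  push_cast
  ring

theorem fc_const (a : ℂ) (n : Fin 4 → ℤ) : FF.fc (fun _ => a) n = if n = 0 then a else 0 := by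
  unfold FF.fc
  rw [integral_mul_const]
  split_ifs with h
  · rw [h, neg_zero]
    simp only [ch_zero]
    rw [integral_const]
    simp only [measureReal_def]
    rw [vol_cube]
    simp
  · rw [int_ch (neg_ne_zero.2 h), zero_mul]

/-- Fourier coefficients of `tri` -/
theorem cf_tau (D : Data) (l : Fin 3) (i j : Fin 4) (n : Fin 4 → ℤ) :
    cf (mulOp (tc D l i j) (chH 0)) n = (if n = 0 then (ka D l i j : ℂ) else 0) +
      2 * Real.pi * Complex.I * (n i * FF.fc (lc D l j) n - n j * FF.fc (lc D l i) n) := by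
  have h1 : cf (mulOp (tc D l i j) (chH 0)) n = ∫ x in Icc (0 : R4) 1,
      (FF.ch (-n) x * (ka D l i j : ℂ) + (FF.ch (-n) x * fderiv ℝ (lc D l j) x (Pi.single i 1) -
        FF.ch (-n) x * fderiv ℝ (lc D l i) x (Pi.single j 1))) := by
    unfold cf
    refine integral_congr_ae ?_
    filter_upwards [mulOp_ae (tc_cont D l i j) (chH 0), rep_chH 0] with x h1 h2
    rw [h1, h2, ch_zero, tc_eq]
    ring
  have hc : ∀ i j, Continuous fun x => FF.ch (-n) x * fderiv ℝ (lc D l j) x (Pi.single i 1) :=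
    fun i j => (FF.ch_cont _).mul (((lc_smooth D l j).continuous_fderiv (by simp)).clm_apply
      continuous_const)
  have i1 : IntegrableOn (fun x => FF.ch (-n) x * (ka D l i j : ℂ)) (Icc (0 : R4) 1) :=
    ((FF.ch_cont _).mul continuous_const).integrableOn_Icc
  have i2 : IntegrableOn (fun x => FF.ch (-n) x * fderiv ℝ (lc D l j) x (Pi.single i 1))
    (Icc (0 : R4) 1) := (hc i j).integrableOn_Icc
  have i3 : IntegrableOn (fun x => FF.ch (-n) x * fderiv ℝ (lc D l i) x (Pi.single j 1))
    (Icc (0 : R4) 1) := (hc j i).integrableOn_Icc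
  have i4 : IntegrableOn (fun x => FF.ch (-n) x * fderiv ℝ (lc D l j) x (Pi.single i 1) -
    FF.ch (-n) x * fderiv ℝ (lc D l i) x (Pi.single j 1)) (Icc (0 : R4) 1) := i2.sub i3
  rw [h1, integral_add i1 i4, integral_sub i2 i3]
  have e1 := fc_const (ka D l i j : ℂ) n
  have e2 := FF.fc_pd ((lc_smooth D l j).of_le (by exact_mod_cast le_top)) (lc_per D l j) i n
  have e3 := FF.fc_pd ((lc_smooth D l i).of_le (by exact_mod_cast le_top)) (lc_per D l i) j n
  unfold FF.fc at e1 e2 e3
  rw [e1, e2, e3]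
  unfold FF.fc
  ring

theorem clo_tau (D : Data) (c : Fin 3 → ℂ) : Clo (bt D fun l => c l • chH 0) := by
  intro n i j l
  have h : ∀ i j, cf (bt D (fun l => c l • chH 0) i j) n =
      ∑ m, c m * ((if n = 0 then (ka D m i j : ℂ) else 0) +
      2 * Real.pi * Complex.I * (n i * FF.fc (lc D m j) n - n j * FF.fc (lc D m i) n)) := by
    intro i j
    unfold bt
    rw [cf_sum]
    refine Finset.sum_congr rfl fun m _ => ?_
    rw [map_smul, cf_smul, cf_tau]
  rw [h, h, h]
  by_cases hn : n = 0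
  · subst hn
    simp
  · simp only [hn, if_false, Fin.sum_univ_three]
    ring

theorem mean_tau (D : Data) (c : Fin 3 → ℂ) (i j : Fin 4) :
    cf (bt D (fun l => c l • chH 0) i j) 0 = ∑ m, c m * (ka D m i j : ℂ) := by
  unfold bt
  rw [cf_sum]
  refine Finset.sum_congr rfl fun m _ => ?_
  rw [map_smul, cf_smul, cf_tau]
  simp

/-- positivity of the constant parts -/
theorem ka_pos {D : Data} (Q : Quat D) : ∃ K : ℝ, 0 < K ∧ ∀ c : Fin 3 → ℂ,
    ∑ l, ‖c l‖ ^ 2 ≤ K * (W (fun i j => conj (∑ m, c m * (ka D m i j : ℂ)))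
      (fun i j => ∑ m, c m * (ka D m i j : ℂ))).re := by
  obtain ⟨K, hK, h⟩ := posy Q
  refine ⟨K, hK, fun c => ?_⟩
  have h1 := h fun l => c l • chH 0
  rw [wH_closed (bt_anti D _) (bt_anti D _) (clo_tau D c) (clo_tau D c)] at h1
  simp only [mean_tau] at h1
  refine le_trans (le_of_eq ?_) h1
  refine Finset.sum_congr rfl fun l _ => ?_
  rw [norm_smul, orthonormal_chH.1 0, mul_one]

/-- `RNG_statement` -/
theorem RNG : RNG_statement := by
  intro D Q y hy
  have hy' : Clo (bt D y) := hy
  obtain ⟨K, hK, hka⟩ := ka_pos Q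
  obtain ⟨K', hK', hpos⟩ := posy Q
  -- the constant combination
  let Λ : (Fin 3 → ℂ) →ₗ[ℂ] (Fin 3 → ℂ) :=
    { toFun := fun c k => W (fun i j => (ka D k i j : ℂ)) (fun i j => ∑ m, c m * (ka D m i j : ℂ))
      map_add' := by
        intro c d
        funext k
        simp only [W, Pi.add_apply, Fin.sum_univ_three]
        ring
      map_smul' := by
        intro a c
        funext k
        simp only [W, Pi.smul_apply, smul_eq_mul, RingHom.id_apply, Fin.sum_univ_three]
        ring }
  have hΛ : Function.Injective Λ := by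
    rw [injective_iff_map_eq_zero]
    intro c hc
    have h1 : W (fun i j => conj (∑ m, c m * (ka D m i j : ℂ)))
      (fun i j => ∑ m, c m * (ka D m i j : ℂ)) = ∑ k, conj (c k) * Λ c k := by
      show _ = ∑ k, conj (c k) * W (fun i j => (ka D k i j : ℂ))
        (fun i j => ∑ m, c m * (ka D m i j : ℂ))
      simp only [W, Fin.sum_univ_three, map_add, map_mul, Complex.conj_ofReal]
      ring
    have h2 := hka c
    rw [h1, hc] at h2
    simp only [Pi.zero_apply, mul_zero, Finset.sum_const_zero, Complex.zero_re] at h2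
    funext l
    have h3 : ‖c l‖ ^ 2 ≤ ∑ l, ‖c l‖ ^ 2 :=
      Finset.single_le_sum (f := fun l => ‖c l‖ ^ 2) (fun _ _ => sq_nonneg _) (Finset.mem_univ l)
    have h4 : ‖c l‖ ^ 2 ≤ 0 := h3.trans h2
    have h5 : ‖c l‖ = 0 := by nlinarith [norm_nonneg (c l)]
    exact norm_eq_zero.1 h5
  obtain ⟨c, hc⟩ := (LinearMap.injective_iff_surjective.1 hΛ)
    (fun k => W (fun i j => (ka D k i j : ℂ)) (fun i j => cf (bt D y i j) 0))
  refine ⟨c, ?_⟩
  set z : Fin 3 → H := y - fun l => c l • chH 0 with hz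
  have hzc : Clo (bt D z) := by
    have := clo_sub hy' (clo_tau D c)
    have h1 : (fun i j => bt D y i j - bt D (fun l => c l • chH 0) i j) = bt D z := by
      funext i j
      exact (bt_sub D y _ i j).symm
    rwa [h1] at this
  set κ : Fin 4 → Fin 4 → ℂ := fun i j => cf (bt D z i j) 0 with hκ
  have hκa : ∀ i j, κ j i = - κ i j := fun i j => cf_anti (bt_anti D z) 0 i j
  have hκe : ∀ i j, κ i j = cf (bt D y i j) 0 - ∑ m, c m * (ka D m i j : ℂ) := by
    intro i j
    rw [hκ, hz]
    show cf (bt D (y - fun l => c l • chH 0) i j) 0 = _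
    rw [bt_sub, cf_sub, mean_tau]
  have hort : ∀ k, W (fun i j => (ka D k i j : ℂ)) κ = 0 := by
    intro k
    have h1 := congrFun hc k
    have h2 : W (fun i j => (ka D k i j : ℂ)) (fun i j => ∑ m, c m * (ka D m i j : ℂ)) =
      W (fun i j => (ka D k i j : ℂ)) (fun i j => cf (bt D y i j) 0) := h1
    have h3 : W (fun i j => (ka D k i j : ℂ)) κ =
      W (fun i j => (ka D k i j : ℂ)) (fun i j => cf (bt D y i j) 0) -
      W (fun i j => (ka D k i j : ℂ)) (fun i j => ∑ m, c m * (ka D m i j : ℂ)) := by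
      unfold W
      simp only [hκe]
      ring
    rw [h3, h2, sub_self]
  -- signature
  have hreal : ∀ v : Fin 3 → ℝ, v ≠ 0 → 0 < W (fun i j => ∑ l, v l * ka D l i j)
      (fun i j => ∑ l, v l * ka D l i j) := by
    intro v hv
    have h1 := hka fun l => (v l : ℂ)
    have h2 : (W (fun i j => conj (∑ m, (v m : ℂ) * (ka D m i j : ℂ)))
      (fun i j => ∑ m, (v m : ℂ) * (ka D m i j : ℂ))).re = W (fun i j => ∑ l, v l * ka D l i j)
      (fun i j => ∑ l, v l * ka D l i j) := by
      have : W (fun i j => conj (∑ m, (v m : ℂ) * (ka D m i j : ℂ)))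
        (fun i j => ∑ m, (v m : ℂ) * (ka D m i j : ℂ)) =
        ((W (fun i j => ∑ l, v l * ka D l i j) (fun i j => ∑ l, v l * ka D l i j) : ℝ) : ℂ) := by
        simp only [W, map_sum, map_mul, Complex.conj_ofReal]
        push_cast
        rfl
      rw [this, Complex.ofReal_re]
    rw [h2] at h1
    obtain ⟨l, hl⟩ := Function.ne_iff.1 hv
    have h3 : 0 < ‖(v l : ℂ)‖ ^ 2 := by
      have : (v l : ℂ) ≠ 0 := by exact_mod_cast hl
      positivity
    have h4 : ‖(v l : ℂ)‖ ^ 2 ≤ ∑ l, ‖(v l : ℂ)‖ ^ 2 :=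
      Finset.single_le_sum (f := fun l => ‖(v l : ℂ)‖ ^ 2) (fun _ _ => sq_nonneg _)
        (Finset.mem_univ l)
    have h5 : 0 < K * W (fun i j => ∑ l, v l * ka D l i j) (fun i j => ∑ l, v l * ka D l i j) :=
      lt_of_lt_of_le h3 (h4.trans h1)
    exact (pos_iff_pos_of_mul_pos h5).1 hK
  have hA := signature (ka_anti D) hreal (A := fun i j => (κ i j).re)
    (fun i j => by rw [hκa i j]; simp) (fun k => by
      have h := congrArg Complex.re (hort k)
      have h2 : (W (fun i j => (ka D k i j : ℂ)) κ).re = W (ka D k) fun i j => (κ i j).re := by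
        simp only [W, Complex.add_re, Complex.sub_re, Complex.mul_re, Complex.ofReal_re,
          Complex.ofReal_im, zero_mul, sub_zero]
      rw [← h2, h, Complex.zero_re])
  have hB := signature (ka_anti D) hreal (A := fun i j => (κ i j).im)
    (fun i j => by rw [hκa i j]; simp) (fun k => by
      have h := congrArg Complex.im (hort k)
      have h2 : (W (fun i j => (ka D k i j : ℂ)) κ).im = W (ka D k) fun i j => (κ i j).im := by
        simp only [W, Complex.add_im, Complex.sub_im, Complex.mul_im, Complex.ofReal_re,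
          Complex.ofReal_im, zero_mul, add_zero]
      rw [← h2, h, Complex.zero_im])
  have e3 : (W (fun i j => conj (κ i j)) κ).re =
      W (fun i j => (κ i j).re) (fun i j => (κ i j).re) +
      W (fun i j => (κ i j).im) (fun i j => (κ i j).im) := by
    simp only [W, Complex.add_re, Complex.sub_re, Complex.mul_re, Complex.conj_re,
      Complex.conj_im]
    ring
  have h5 := hpos z
  rw [wH_closed (bt_anti D z) (bt_anti D z) hzc hzc] at h5
  have h6 : (W (fun i j => conj (cf (bt D z i j) 0)) (fun i j => cf (bt D z i j) 0)).re ≤ 0 := by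
    show (W (fun i j => conj (κ i j)) κ).re ≤ 0
    rw [e3]
    linarith
  have h7 : ∑ l, ‖z l‖ ^ 2 ≤ 0 := h5.trans (mul_nonpos_of_nonneg_of_nonpos hK'.le h6)
  intro l
  have h8 : ‖z l‖ ^ 2 ≤ ∑ l, ‖z l‖ ^ 2 :=
    Finset.single_le_sum (f := fun l => ‖z l‖ ^ 2) (fun _ _ => sq_nonneg _) (Finset.mem_univ l)
  have h9 : ‖z l‖ = 0 := by nlinarith [norm_nonneg (z l)]
  have h10 : z l = 0 := norm_eq_zero.1 h9
  have h11 : y l = c l • chH 0 := by
    have : y l - c l • chH 0 = 0 := h10
    exact sub_eq_zero.1 this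
  rw [h11]
  filter_upwards [Lp.coeFn_smul (c l) (chH 0), rep_chH 0] with x h12 h13
  rw [h12, Pi.smul_apply, h13, ch_zero, smul_eq_mul, mul_one]

end Vale.Agent.P247.H880.Co
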