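import Vale.Agent.P247.H647.Defs

/-!
# P247, Stage 2, S2-IL, part a: Stokes on the cube, covariant derivatives
-/

open scoped ContDiff Topology
open Set MeasureTheory Filter Metric

noncomputable section

namespace Vale.Agent.P247.H880

open Vale.Agent.P247.H74 Vale.Agent.P247.H574 Vale.Agent.P247.H647

variable {E : Type*} [NormedAddCommGroup E]

/-! ## Stokes on the cube -/

/-- the divergence of a periodic vector field has mean zero -/
theorem div_zero [NormedSpace ℝ E] [CompleteSpace E] (W : Fin 4 → R4 → E)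
    (hW : ∀ i, ContDiff ℝ 1 (W i))
    (hp : ∀ i, Per4 (W i)) : ∫ x in cube, ∑ i, fderiv ℝ (W i) x (e i) = 0 := by
  have hc : ∀ i, Continuous (W i) := fun i => (hW i).continuous
  have h := integral_divergence_of_hasFDerivAt_off_countable (E := E) (n := 3) (0 : R4) (1 : R4)
    (fun i => zero_le_one) (fun x i => W i x)
    (fun x => ContinuousLinearMap.pi fun i => fderiv ℝ (W i) x) ∅ countable_empty
    (continuous_pi fun i => hc i).continuousOn
    (fun x _ => hasFDerivAt_pi.2 fun i =>
      ((hW i).differentiable one_ne_zero x).hasFDerivAt)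
    (by
      apply Continuous.integrableOn_Icc
      refine continuous_finsetSum _ fun i _ => ?_
      exact ((hW i).continuous_fderiv one_ne_zero).clm_apply continuous_const)
  simp only [ContinuousLinearMap.coe_pi'] at h
  have h2 : ∫ x in cube, ∑ i, fderiv ℝ (W i) x (e i) = ∫ x in Icc (0 : R4) 1, ∑ i,
      (fderiv ℝ (W i) x) (Pi.single i 1) := rfl
  rw [h2, h]
  refine Finset.sum_eq_zero fun i _ => ?_
  rw [sub_eq_zero]
  refine integral_congr_ae (Eventually.of_forall fun x => ?_)
  show W i (i.insertNth ((1 : R4) i) x) = W i (i.insertNth ((0 : R4) i) x)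
  have := hp i (Pi.single i 1) (i.insertNth ((0 : R4) i) x)
  rw [← this]
  congr 1
  ext j
  refine Fin.succAboveCases i ?_ (fun k => ?_) j
  · simp [tr]
  · simp [tr, Fin.succAbove_ne]

/-- the divergence of a vector field -/
def dv (b : R4 → R4) (x : R4) : ℝ := ∑ i, fderiv ℝ b x (e i) i

theorem vec_eq (v : R4) : v = ∑ i, v i • e i := by
  ext j
  simp [e, Finset.sum_apply, Pi.single_apply]

/-- integration by parts along a periodic vector field -/
theorem ibp [NormedSpace ℝ E] [CompleteSpace E] (g : R4 → E) (hg : ContDiff ℝ 1 g) (hp : Per4 g)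
    (b : R4 → R4) (hb : ContDiff ℝ 1 b) (hbp : Per4 b) :
    ∫ x in cube, fderiv ℝ g x (b x) = - ∫ x in cube, dv b x • g x := by
  have hbi : ∀ i, ContDiff ℝ 1 fun x => b x i := fun i => contDiff_pi.1 hb i
  have h := div_zero (fun i x => b x i • g x) (fun i => (hbi i).smul hg)
    (fun i n x => by simp only [hbp n x, hp n x])
  have hgd : ∀ x, DifferentiableAt ℝ g x := fun x => hg.differentiable one_ne_zero x
  have hbd : ∀ x, DifferentiableAt ℝ b x := fun x => hb.differentiable one_ne_zero x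
  have e1 : ∀ x, ∑ i, fderiv ℝ (fun x => b x i • g x) x (e i) =
      fderiv ℝ g x (b x) + dv b x • g x := by
    intro x
    have : ∀ i, fderiv ℝ (fun x => b x i • g x) x (e i) =
        b x i • fderiv ℝ g x (e i) + fderiv ℝ b x (e i) i • g x := by
      intro i
      rw [fderiv_fun_smul ((hbi i).differentiable one_ne_zero x) (hgd x)]
      simp only [add_apply, smul_apply,
        ContinuousLinearMap.smulRight_apply]
      congr 2
      have := (hasFDerivAt_pi'.1 (hbd x).hasFDerivAt i).fderiv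
      rw [this]
      rfl
    simp only [this, Finset.sum_add_distrib]
    congr 1
    · conv_rhs => rw [vec_eq (b x)]
      simp [map_sum]
    · rw [dv, Finset.sum_smul]
  simp only [e1] at h
  rw [integral_add] at h
  · exact eq_neg_of_add_eq_zero_left h
  · exact ((hg.continuous_fderiv one_ne_zero).clm_apply hb.continuous).integrableOn_Icc
  · refine Continuous.integrableOn_Icc (Continuous.smul ?_ hg.continuous)
    unfold dv
    refine continuous_finsetSum _ fun i _ => ?_
    exact (continuous_apply i).comp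
      ((hb.continuous_fderiv one_ne_zero).clm_apply continuous_const)

/-! ## Covariant derivatives -/

variable [NormedSpace ℂ E]

/-- the phase of a translation -/
def ph (k : Fin 4 → ℤ) (x : R4) : ℂ := Complex.exp (2 * Real.pi * Complex.I * k 0 * x 1)

theorem ph_norm (k : Fin 4 → ℤ) (x : R4) : ‖ph k x‖ = 1 := by
  unfold ph
  have : (2 * Real.pi * Complex.I * k 0 * x 1 : ℂ) = ((2 * Real.pi * k 0 * x 1 : ℝ) : ℂ) *
      Complex.I := by push_cast; ring
  rw [this, Complex.norm_exp_ofReal_mul_I]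

theorem ph_star (k : Fin 4 → ℤ) (x : R4) : (starRingEnd ℂ) (ph k x) * ph k x = 1 := by
  rw [← Complex.normSq_eq_conj_mul_self, Complex.normSq_eq_norm_sq, ph_norm]; simp

theorem tr_eq (k : Fin 4 → ℤ) (x : R4) : tr k x = x + fun i => (k i : ℝ) := rfl

theorem fderiv_tr {F : Type*} [NormedAddCommGroup F] [NormedSpace ℝ F] (g : R4 → F)
    (k : Fin 4 → ℤ) (x : R4) : fderiv ℝ (fun x => g (tr k x)) x = fderiv ℝ g (tr k x) := by
  simp only [tr_eq]
  exact fderiv_comp_add_right _

/-- `g` periodic implies `Dg` periodic -/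
theorem per_fderiv {F : Type*} [NormedAddCommGroup F] [NormedSpace ℝ F] {g : R4 → F}
    (hg : Per4 g) : Per4 (fderiv ℝ g) := by
  intro k x
  rw [← fderiv_tr]
  congr 1
  funext y
  exact hg k y

theorem per_dv {b : R4 → R4} (hb : Per4 b) : Per4 (dv b) := by
  intro k x
  simp only [dv, per_fderiv hb k x]

theorem contDiff_dv {b : R4 → R4} (hb : ContDiff ℝ ∞ b) : ContDiff ℝ ∞ (dv b) := by
  unfold dv
  refine ContDiff.sum fun i _ => ?_
  have h1 : ContDiff ℝ ∞ (fderiv ℝ b) := hb.fderiv_right (by simp)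
  exact contDiff_pi.1 (h1.clm_apply contDiff_const) i

/-- the derivative of the phase -/
theorem hasFDerivAt_ph (k : Fin 4 → ℤ) (x : R4) : HasFDerivAt (ph k)
    ((ContinuousLinearMap.proj 1 : R4 →L[ℝ] ℝ).smulRight
      ((2 * Real.pi * Complex.I * k 0) * ph k x : ℂ)) x := by
  have h1 : HasFDerivAt (fun y : R4 => ((y 1 : ℝ) : ℂ))
      (Complex.ofRealCLM.comp (ContinuousLinearMap.proj 1 : R4 →L[ℝ] ℝ)) x :=
    (Complex.ofRealCLM.comp (ContinuousLinearMap.proj 1 : R4 →L[ℝ] ℝ)).hasFDerivAt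
  have h2 := ((h1.const_mul (2 * Real.pi * Complex.I * k 0 : ℂ))).cexp
  refine h2.congr_fderiv ?_
  ext v
  simp [ph]
  ring

/-- the covariant derivative of a section in the direction of a periodic vector field is a
section -/
theorem cov_tr {A : R4 → R4 →L[ℝ] ℝ} (hA : QA A) {s : R4 → E} (hs : QS s)
    (hd : Differentiable ℝ s) (k : Fin 4 → ℤ) (x u : R4) :
    cov A s (tr k x) u = ph k x • cov A s x u := by
  have h1 : fderiv ℝ s (tr k x) = fderiv ℝ (fun y => ph k y • s y) x := by
    rw [← fderiv_tr]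
    congr 1
    funext y
    exact hs k y
  have h2 : fderiv ℝ (fun y => ph k y • s y) x = _ :=
    ((hasFDerivAt_ph k x).smul (hd x).hasFDerivAt).fderiv
  unfold cov
  rw [h1, h2, hA k x, hs k x]
  simp only [add_apply, smul_apply,
    ContinuousLinearMap.smulRight_apply, ContinuousLinearMap.proj_apply, smul_eq_mul]
  rw [show Complex.exp (2 * Real.pi * Complex.I * k 0 * x 1) = ph k x from rfl, smul_sub,
    smul_smul, smul_smul]
  rw [show (u 1 : ℝ) • (2 * (Real.pi : ℂ) * Complex.I * (k 0 : ℂ) * ph k x) =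
    (u 1 : ℂ) * (2 * (Real.pi : ℂ) * Complex.I * (k 0 : ℂ) * ph k x) from Complex.real_smul]
  rw [add_sub_assoc, ← sub_smul, sub_eq_add_neg (ph k x • (fderiv ℝ s x) u), ← neg_smul]
  congr 2
  push_cast
  ring

theorem qs_cov {A : R4 → R4 →L[ℝ] ℝ} (hA : QA A) {s : R4 → E} (hs : QS s)
    (hd : Differentiable ℝ s) {b : R4 → R4} (hb : Per4 b) : QS fun x => cov A s x (b x) := by
  intro k x
  show cov A s (tr k x) (b (tr k x)) = _
  rw [hb k x, cov_tr hA hs hd]
  rfl

theorem contDiff_cov {A : R4 → R4 →L[ℝ] ℝ} (hA : ContDiff ℝ ∞ A) {s : R4 → E}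
    (hs : ContDiff ℝ ∞ s) {b : R4 → R4} (hb : ContDiff ℝ ∞ b) :
    ContDiff ℝ ∞ fun x => cov A s x (b x) := by
  unfold cov
  have h1 : ContDiff ℝ ∞ (fderiv ℝ s) := hs.fderiv_right (by simp)
  refine (h1.clm_apply hb).sub ?_
  refine ContDiff.smul (contDiff_const.mul ?_) hs
  exact Complex.ofRealCLM.contDiff.comp (hA.clm_apply hb)

/-- constant operators commute with covariant derivatives; zeroth order version with a variable
operator -/
theorem cov_clm {F : Type*} [NormedAddCommGroup F] [NormedSpace ℂ F]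
    (A : R4 → R4 →L[ℝ] ℝ) (σ : E →L[ℂ] F) {s : R4 → E} (hs : Differentiable ℝ s) (x u : R4) :
    cov A (fun y => σ (s y)) x u = σ (cov A s x u) := by
  unfold cov
  have : HasFDerivAt (fun y => σ (s y)) ((σ.restrictScalars ℝ).comp (fderiv ℝ s x)) x :=
    (σ.restrictScalars ℝ).hasFDerivAt.comp x (hs x).hasFDerivAt
  rw [this.fderiv]
  simp

theorem cov_add (A : R4 → R4 →L[ℝ] ℝ) {s t : R4 → E} (hs : Differentiable ℝ s)
    (ht : Differentiable ℝ t) (x u : R4) :
    cov A (fun y => s y + t y) x u = cov A s x u + cov A t x u := by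
  unfold cov
  rw [fderiv_fun_add (hs x) (ht x)]
  simp only [add_apply, smul_add]
  abel

theorem cov_sum (A : R4 → R4 →L[ℝ] ℝ) {ι : Type*} (S : Finset ι) {s : ι → R4 → E}
    (hs : ∀ i, Differentiable ℝ (s i)) (x u : R4) :
    cov A (fun y => ∑ i ∈ S, s i y) x u = ∑ i ∈ S, cov A (s i) x u := by
  unfold cov
  rw [fderiv_fun_sum fun i _ => hs i x]
  simp only [sum_apply, Finset.smul_sum, Finset.sum_sub_distrib]

/-- the covariant derivative is real linear in the direction -/
theorem cov_lin (A : R4 → R4 →L[ℝ] ℝ) (s : R4 → E) (x : R4) {ι : Type*} (S : Finset ι)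
    (c : ι → ℝ) (u : ι → R4) :
    cov A s x (∑ i ∈ S, c i • u i) = ∑ i ∈ S, (c i : ℂ) • cov A s x (u i) := by
  unfold cov
  simp only [map_sum, map_smul, smul_eq_mul, smul_sub, Finset.sum_sub_distrib]
  have h1 : ∑ i ∈ S, (c i : ℂ) • fderiv ℝ s x (u i) = ∑ i ∈ S, c i • fderiv ℝ s x (u i) :=
    Finset.sum_congr rfl fun i _ => Complex.coe_smul (c i) (fderiv ℝ s x (u i))
  rw [h1]
  congr 1
  · push_cast
    rw [Finset.mul_sum, Finset.sum_smul]
    refine Finset.sum_congr rfl fun i _ => ?_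
    rw [smul_smul]
    congr 1
    ring

/-- the commutator -/
theorem cov_comm {A : R4 → R4 →L[ℝ] ℝ} (hA : ContDiff ℝ ∞ A) {s : R4 → E}
    (hs : ContDiff ℝ ∞ s) {b c : R4 → R4} (hb : ContDiff ℝ ∞ b) (hc : ContDiff ℝ ∞ c) (x : R4) :
    cov A (fun y => cov A s y (c y)) x (b x) - cov A (fun y => cov A s y (b y)) x (c x) =
      cov A s x (fderiv ℝ c x (b x) - fderiv ℝ b x (c x)) -
        (Complex.I * (dd A x (b x) (c x) : ℂ)) • s x := by
  have hs1 : ContDiff ℝ ∞ (fderiv ℝ s) := hs.fderiv_right (by simp)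
  have hn : (∞ : WithTop ℕ∞) ≠ 0 := by simp
  have ds : DifferentiableAt ℝ s x := hs.differentiable hn x
  have ds1 : DifferentiableAt ℝ (fderiv ℝ s) x := hs1.differentiable hn x
  have dA : DifferentiableAt ℝ A x := hA.differentiable hn x
  have key : ∀ c : R4 → R4, ContDiff ℝ ∞ c → ∀ u : R4, cov A (fun y => cov A s y (c y)) x u =
      fderiv ℝ (fderiv ℝ s) x u (c x) + fderiv ℝ s x (fderiv ℝ c x u)
      - (Complex.I * ((fderiv ℝ A x u (c x) + A x (fderiv ℝ c x u) : ℝ) : ℂ)) • s x
      - (Complex.I * (A x (c x) : ℂ)) • fderiv ℝ s x u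
      - (Complex.I * (A x u : ℂ)) • (fderiv ℝ s x (c x) - (Complex.I * (A x (c x) : ℂ)) • s x) := by
    intro c hc u
    have dc : DifferentiableAt ℝ c x := hc.differentiable hn x
    have h1 : HasFDerivAt (fun y => fderiv ℝ s y (c y))
        ((fderiv ℝ s x).comp (fderiv ℝ c x) + (fderiv ℝ (fderiv ℝ s) x).flip (c x)) x :=
      ds1.hasFDerivAt.clm_apply dc.hasFDerivAt
    have h2 : HasFDerivAt (fun y => A y (c y))
        ((A x).comp (fderiv ℝ c x) + (fderiv ℝ A x).flip (c x)) x :=
      dA.hasFDerivAt.clm_apply dc.hasFDerivAt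
    have h3 : HasFDerivAt (fun y => Complex.I * ((A y (c y) : ℝ) : ℂ))
        (Complex.I • (Complex.ofRealCLM.comp
          ((A x).comp (fderiv ℝ c x) + (fderiv ℝ A x).flip (c x)))) x :=
      (Complex.ofRealCLM.hasFDerivAt.comp x h2).const_mul _
    have h4 := h1.sub (h3.smul ds.hasFDerivAt)
    have h5 : fderiv ℝ (fun y => cov A s y (c y)) x = _ := h4.fderiv
    rw [cov, h5]
    simp only [add_apply, sub_apply,
      smul_apply, ContinuousLinearMap.smulRight_apply,
      ContinuousLinearMap.comp_apply, ContinuousLinearMap.flip_apply, Complex.ofRealCLM_apply,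
      smul_eq_mul]
    rw [cov]
    have : (Complex.I * ((A x (fderiv ℝ c x u) + fderiv ℝ A x u (c x) : ℝ) : ℂ)) =
      (Complex.I * ((fderiv ℝ A x u (c x) + A x (fderiv ℝ c x u) : ℝ) : ℂ)) := by
      rw [add_comm]
    rw [this]
    abel
  rw [key c hc, key b hb]
  have hsym : fderiv ℝ (fderiv ℝ s) x (b x) (c x) = fderiv ℝ (fderiv ℝ s) x (c x) (b x) :=
    (hs.contDiffAt.isSymmSndFDerivAt (by
      rw [minSmoothness_of_isRCLikeNormedField]; exact WithTop.coe_le_coe.2 le_top)) (b x) (c x)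
  rw [hsym]
  unfold cov
  simp only [map_sub, dd, sub_apply, ContinuousLinearMap.flip_apply]
  push_cast
  module

end Vale.Agent.P247.H880
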