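import Vale.Agent.P247.H726.Frm
import Vale.Agent.P247.H332.E6.Key
import Vale.Agent.P247.H332.E6.Frame
import Vale.Agent.P247.H880.ILa

/-!
# P247, S1, E3: pointwise inequalities for the triple
-/

open scoped ContDiff Topology ComplexConjugate
open Set MeasureTheory Filter Metric

noncomputable section

namespace Vale.Agent.P247.H880.Co

open Vale.Agent.P247.H74 Vale.Agent.P247.H574 Vale.Agent.P247.H647 Vale.Agent.P247.H332.E6

/-- the wedge product of two arrays -/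
def W {K : Type*} [CommRing K] (A B : Fin 4 → Fin 4 → K) : K :=
  A 0 1 * B 2 3 - A 0 2 * B 1 3 + A 0 3 * B 1 2 + A 1 2 * B 0 3 - A 1 3 * B 0 2 + A 2 3 * B 0 1

/-- a form from an array -/
def fA (A : Fin 4 → Fin 4 → ℝ) : F2 :=
  ∑ i, ∑ j, (ContinuousLinearMap.proj i : R4 →L[ℝ] ℝ).smulRight
    (A i j • (ContinuousLinearMap.proj j : R4 →L[ℝ] ℝ))

theorem fA_apply (A : Fin 4 → Fin 4 → ℝ) (u v : R4) :
    fA A u v = ∑ i, ∑ j, u i * (A i j * v j) := by
  simp [fA, sum_apply]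

theorem fA_e (A : Fin 4 → Fin 4 → ℝ) (i j : Fin 4) : fA A (e i) (e j) = A i j := by
  rw [fA_apply]
  simp [e, Pi.single_apply]

theorem fA_self {A : Fin 4 → Fin 4 → ℝ} (hA : ∀ i j, A j i = - A i j) (u : R4) :
    fA A u u = 0 := by
  rw [fA_apply]
  simp only [Fin.sum_univ_four, hA 0 1, hA 0 2, hA 0 3, hA 1 2, hA 1 3, hA 2 3]
  have h0 : ∀ i, A i i = 0 := fun i => by have := hA i i; linarith
  simp only [h0]
  ring

/-- the arrays of the triple -/
def ta (D : Data) (x : R4) (l : Fin 3) (i j : Fin 4) : ℝ := (tri D l).val x (e i) (e j)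

theorem hat_norm (M : Fin 4 → Fin 4 → ℝ) (hM : ∀ a c, M c a = - M a c) :
    ∑ a, ∑ c, M a c ^ 2 = 2 * ∑ k, hat M k ^ 2 - 2 * wdA M M := by
  have h0 : ∀ i, M i i = 0 := fun i => by have := hM i i; linarith
  simp only [Fin.sum_univ_four, Fin.sum_univ_three, hat, wdA, hM 0 1, hM 0 2, hM 0 3, hM 1 2,
    hM 1 3, hM 2 3, h0, Matrix.cons_val_zero, Matrix.cons_val_one, Matrix.cons_val]
  ring

theorem sq_sum_le3 {f : Fin 3 → ℝ} : (∑ j, f j) ^ 2 ≤ 3 * ∑ j, f j ^ 2 := by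
  have := sq_sum_le_card_mul_sum_sq (s := (Finset.univ : Finset (Fin 3))) (f := f)
  simpa using this

theorem sq_sum_le4 {f : Fin 4 → ℝ} : (∑ j, f j) ^ 2 ≤ 4 * ∑ j, f j ^ 2 := by
  have := sq_sum_le_card_mul_sum_sq (s := (Finset.univ : Finset (Fin 4))) (f := f)
  simpa using this

variable {D : Data} (Q : Quat D)

theorem w4_fA (A : Fin 4 → Fin 4 → ℝ) (x : R4) (l : Fin 3) :
    w4 (fun p q => fA A p q) (fun p q => (tri D l).val x p q) = W A (ta D x l) := by
  simp only [w4, fA_e, W, ta]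

theorem w4_fA2 (A B : Fin 4 → Fin 4 → ℝ) :
    w4 (fun p q => fA A p q) (fun p q => fA B p q) = W A B := by
  simp only [w4, fA_e, W]

/-- the norm of a real array at a point -/
theorem pt_one (x : R4) {c₀ t₀ : ℝ} (hc0 : 0 ≤ c₀) (ht0 : 0 ≤ t₀)
    (hc : ∀ i a, |coef Q x (e i) a| ≤ c₀) (ht : ∀ k j, |Ti Q k j x| ≤ t₀)
    {A : Fin 4 → Fin 4 → ℝ} (hA : ∀ i j, A j i = - A i j) :
    ∑ i, ∑ j, A i j ^ 2 ≤ 512 * c₀ ^ 4 * (9 * t₀ ^ 2) * ∑ l, W A (ta D x l) ^ 2
      - 512 * c₀ ^ 4 * W A A := by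
  have hself := fA_self hA
  obtain ⟨h1, h2, -⟩ := H726.frm D Q x
  have h1' := h1 (fA A) (fA A) hself hself
  have h2' := h2 (fA A) hself
  rw [w4_fA2] at h1'
  simp only [w4_fA] at h2'
  set M : Fin 4 → Fin 4 → ℝ := fr (fun a => Q.b a x) fun p q => fA A p q with hM
  have hsk : ∀ p q, fA A p q = - fA A q p := by
    intro p q
    have h := hself (p + q)
    simp only [map_add, add_apply, hself, zero_add, add_zero] at h
    linarith
  have hMa : ∀ a c, M c a = - M a c := fun a c => hsk _ _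
  have hn := hat_norm M hMa
  -- the self-dual part
  have hh : ∀ k, hat M k = ∑ j, Ti Q k j x * W A (ta D x j) := by
    intro k
    have : hat M = (Q.T x)⁻¹.mulVec ((Q.T x).mulVec (hat M)) := by
      rw [Matrix.mulVec_mulVec, Matrix.nonsing_inv_mul _ (isUnit_iff_ne_zero.2 (Q.T_det x)),
        Matrix.one_mulVec]
    rw [this]
    show ∑ j, (Q.T x)⁻¹ k j * ((Q.T x).mulVec (hat M)) j = _
    refine Finset.sum_congr rfl fun j _ => ?_
    rw [h2' j]
    rfl
  have hh2 : ∑ k, hat M k ^ 2 ≤ 9 * t₀ ^ 2 * ∑ l, W A (ta D x l) ^ 2 := by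
    have h3 : ∀ k, hat M k ^ 2 ≤ 3 * t₀ ^ 2 * ∑ l, W A (ta D x l) ^ 2 := by
      intro k
      rw [hh k]
      refine sq_sum_le3.trans ?_
      rw [mul_assoc]
      refine mul_le_mul_of_nonneg_left ?_ (by norm_num)
      rw [Finset.mul_sum]
      refine Finset.sum_le_sum fun j _ => ?_
      rw [mul_pow]
      refine mul_le_mul_of_nonneg_right ?_ (sq_nonneg _)
      rw [← sq_abs]
      exact pow_le_pow_left₀ (abs_nonneg _) (ht k j) 2
    calc ∑ k, hat M k ^ 2 ≤ ∑ _k : Fin 3, 3 * t₀ ^ 2 * ∑ l, W A (ta D x l) ^ 2 :=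
          Finset.sum_le_sum fun k _ => h3 k
      _ = 9 * t₀ ^ 2 * ∑ l, W A (ta D x l) ^ 2 := by
          rw [Finset.sum_const, Finset.card_univ, Fintype.card_fin, nsmul_eq_mul]; push_cast; ring
  -- from the frame to the standard basis
  have hS0 : 0 ≤ ∑ a, ∑ c, M a c ^ 2 :=
    Finset.sum_nonneg fun a _ => Finset.sum_nonneg fun c _ => sq_nonneg _
  have hA2 : ∀ i j, A i j ^ 2 ≤ 16 * c₀ ^ 4 * ∑ a, ∑ c, M a c ^ 2 := by
    intro i j
    have h3 : A i j = ∑ a, ∑ c, coef Q x (e i) a * (coef Q x (e j) c * M a c) := by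
      rw [← fA_e A i j]
      conv_lhs => rw [coef_spec Q x (e i), coef_spec Q x (e j)]
      simp only [map_sum, map_smul, sum_apply, smul_apply, smul_eq_mul, Finset.mul_sum]
      rw [Finset.sum_comm]
      refine Finset.sum_congr rfl fun a _ => Finset.sum_congr rfl fun c _ => ?_
      show _ = coef Q x (e i) a * (coef Q x (e j) c * fA A (Q.b a x) (Q.b c x))
      ring
    rw [h3]
    refine sq_sum_le4.trans ?_
    have h4 : ∀ a, (∑ c, coef Q x (e i) a * (coef Q x (e j) c * M a c)) ^ 2 ≤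
        4 * c₀ ^ 4 * ∑ c, M a c ^ 2 := by
      intro a
      refine sq_sum_le4.trans ?_
      rw [mul_assoc]
      refine mul_le_mul_of_nonneg_left ?_ (by norm_num)
      rw [Finset.mul_sum]
      refine Finset.sum_le_sum fun c _ => ?_
      rw [mul_pow, mul_pow, ← mul_assoc]
      refine mul_le_mul_of_nonneg_right ?_ (sq_nonneg _)
      have e1 : coef Q x (e i) a ^ 2 ≤ c₀ ^ 2 := by
        rw [← sq_abs]; exact pow_le_pow_left₀ (abs_nonneg _) (hc i a) 2
      have e2 : coef Q x (e j) c ^ 2 ≤ c₀ ^ 2 := by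
        rw [← sq_abs]; exact pow_le_pow_left₀ (abs_nonneg _) (hc j c) 2
      calc coef Q x (e i) a ^ 2 * coef Q x (e j) c ^ 2 ≤ c₀ ^ 2 * c₀ ^ 2 :=
            mul_le_mul e1 e2 (sq_nonneg _) (sq_nonneg _)
        _ = c₀ ^ 4 := by ring
    calc 4 * ∑ a, (∑ c, coef Q x (e i) a * (coef Q x (e j) c * M a c)) ^ 2
        ≤ 4 * ∑ a, 4 * c₀ ^ 4 * ∑ c, M a c ^ 2 :=
          mul_le_mul_of_nonneg_left (Finset.sum_le_sum fun a _ => h4 a) (by norm_num)
      _ = 16 * c₀ ^ 4 * ∑ a, ∑ c, M a c ^ 2 := by rw [← Finset.mul_sum]; ring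
  have hsum : ∑ i, ∑ j, A i j ^ 2 ≤ 256 * c₀ ^ 4 * ∑ a, ∑ c, M a c ^ 2 := by
    calc ∑ i, ∑ j, A i j ^ 2 ≤ ∑ _i : Fin 4, ∑ _j : Fin 4, 16 * c₀ ^ 4 * ∑ a, ∑ c, M a c ^ 2 :=
          Finset.sum_le_sum fun i _ => Finset.sum_le_sum fun j _ => hA2 i j
      _ = 256 * c₀ ^ 4 * ∑ a, ∑ c, M a c ^ 2 := by
          simp only [Finset.sum_const, Finset.card_univ, Fintype.card_fin, nsmul_eq_mul]
          push_cast; ring
  rw [hn, h1'.symm] at hsum
  have hc4 : 0 ≤ c₀ ^ 4 := by positivity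
  nlinarith [mul_le_mul_of_nonneg_left hh2 (by positivity : (0 : ℝ) ≤ 512 * c₀ ^ 4)]

/-- uniform bounds of the coefficients -/
theorem bounds : ∃ c₀ t₀ : ℝ, 0 < c₀ ∧ 0 < t₀ ∧ (∀ x i a, |coef Q x (e i) a| ≤ c₀) ∧
    ∀ x k j, |Ti Q k j x| ≤ t₀ := by
  have h1 : ∀ i a, ∃ C, 0 ≤ C ∧ ∀ x, ‖coef Q x (e i) a‖ ≤ C := by
    intro i a
    have hcont : Continuous fun x => coef Q x (e i) a := by
      have h0 : ∀ k, Continuous fun x => (Matrix.of fun i a => Q.b a x i).adjugate a k := by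
        intro k
        refine Continuous.matrix_elem (Continuous.matrix_adjugate ?_) a k
        refine continuous_matrix fun i' a' => ?_
        exact (continuous_apply i').comp (Q.b_smooth a').continuous
      unfold coef Matrix.mulVec dotProduct
      exact continuous_finsetSum _ fun k _ => (h0 k).mul continuous_const
    refine bdd_per hcont fun n x => ?_
    simp only [coef]
    have : (Matrix.of fun i a => Q.b a (tr n x) i) = Matrix.of fun i a => Q.b a x i := by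
      ext i a
      simp only [Matrix.of_apply, Q.b_per a n x]
    rw [this]
  have h2 : ∀ k j, ∃ C, 0 ≤ C ∧ ∀ x, ‖Ti Q k j x‖ ≤ C := fun k j =>
    bdd_per (Ti_smooth Q k j).continuous (Ti_per Q k j)
  choose C1 hC1 hC1' using h1
  choose C2 hC2 hC2' using h2
  refine ⟨1 + ∑ i, ∑ a, C1 i a, 1 + ∑ k, ∑ j, C2 k j, ?_, ?_, fun x i a => ?_, fun x k j => ?_⟩
  · have : 0 ≤ ∑ i, ∑ a, C1 i a := Finset.sum_nonneg fun _ _ => Finset.sum_nonneg fun _ _ => hC1 _ _
    linarith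
  · have : 0 ≤ ∑ k, ∑ j, C2 k j := Finset.sum_nonneg fun _ _ => Finset.sum_nonneg fun _ _ => hC2 _ _
    linarith
  · have h3 : C1 i a ≤ ∑ a, C1 i a :=
      Finset.single_le_sum (f := fun a => C1 i a) (fun _ _ => hC1 _ _) (Finset.mem_univ a)
    have h4 : ∑ a, C1 i a ≤ ∑ i, ∑ a, C1 i a :=
      Finset.single_le_sum (f := fun i => ∑ a, C1 i a)
        (fun _ _ => Finset.sum_nonneg fun _ _ => hC1 _ _) (Finset.mem_univ i)
    have := hC1' i a x
    rw [Real.norm_eq_abs] at this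
    linarith
  · have h3 : C2 k j ≤ ∑ j, C2 k j :=
      Finset.single_le_sum (f := fun j => C2 k j) (fun _ _ => hC2 _ _) (Finset.mem_univ j)
    have h4 : ∑ j, C2 k j ≤ ∑ k, ∑ j, C2 k j :=
      Finset.single_le_sum (f := fun k => ∑ j, C2 k j)
        (fun _ _ => Finset.sum_nonneg fun _ _ => hC2 _ _) (Finset.mem_univ k)
    have := hC2' k j x
    rw [Real.norm_eq_abs] at this
    linarith

include Q in
/-- complex version of the pointwise inequality -/
theorem pt_cplx : ∃ C K : ℝ, 0 ≤ C ∧ 0 < K ∧ ∀ (x : R4) (Z : Fin 4 → Fin 4 → ℂ),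
    (∀ i j, Z j i = - Z i j) → ∑ i, ∑ j, ‖Z i j‖ ^ 2 ≤
      K * ∑ l, ‖W Z (fun i j => (ta D x l i j : ℂ))‖ ^ 2
        - C * (W (fun i j => conj (Z i j)) Z).re := by
  obtain ⟨c₀, t₀, hc0, ht0, hc, ht⟩ := bounds Q
  refine ⟨512 * c₀ ^ 4, 512 * c₀ ^ 4 * (9 * t₀ ^ 2), by positivity, by positivity,
    fun x Z hZ => ?_⟩
  have h1 := pt_one Q x hc0.le ht0.le (hc x) (ht x) (A := fun i j => (Z i j).re)
    (fun i j => by rw [hZ i j]; simp)
  have h2 := pt_one Q x hc0.le ht0.le (hc x) (ht x) (A := fun i j => (Z i j).im)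
    (fun i j => by rw [hZ i j]; simp)
  have e1 : ∑ i, ∑ j, ‖Z i j‖ ^ 2 =
      ∑ i, ∑ j, (Z i j).re ^ 2 + ∑ i, ∑ j, (Z i j).im ^ 2 := by
    rw [← Finset.sum_add_distrib]
    refine Finset.sum_congr rfl fun i _ => ?_
    rw [← Finset.sum_add_distrib]
    refine Finset.sum_congr rfl fun j _ => ?_
    rw [← Complex.normSq_eq_norm_sq, Complex.normSq_apply]
    ring
  have e2 : ∀ l, ‖W Z (fun i j => (ta D x l i j : ℂ))‖ ^ 2 =
      W (fun i j => (Z i j).re) (ta D x l) ^ 2 + W (fun i j => (Z i j).im) (ta D x l) ^ 2 := by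
    intro l
    rw [← Complex.normSq_eq_norm_sq, Complex.normSq_apply]
    simp only [W, Complex.add_re, Complex.sub_re, Complex.mul_re, Complex.ofReal_re,
      Complex.ofReal_im, mul_zero, sub_zero, Complex.add_im, Complex.sub_im, Complex.mul_im,
      zero_add]
    ring
  have e3 : (W (fun i j => conj (Z i j)) Z).re =
      W (fun i j => (Z i j).re) (fun i j => (Z i j).re) +
      W (fun i j => (Z i j).im) (fun i j => (Z i j).im) := by
    simp only [W, Complex.add_re, Complex.sub_re, Complex.mul_re, Complex.conj_re,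
      Complex.conj_im]
    ring
  rw [e1, e3]
  simp only [e2, Finset.sum_add_distrib]
  linarith

/-- the Gram matrix of the triple -/
theorem gram (x : R4) (k l : Fin 3) : W (ta D x k) (ta D x l) = 2 * ∑ a, Q.T x k a * Q.T x l a := by
  have h1 := (H726.frm D Q x).1 (fA (ta D x k)) (fA (ta D x l))
  have hanti : ∀ l i j, ta D x l j i = - ta D x l i j := by
    intro l i j
    have hs := (tri D l).κ_self
    have h := hs (e i + e j)
    simp only [map_add, add_apply, hs, zero_add, add_zero] at h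
    unfold ta CForm.val
    linarith
  have h2 := h1 (fA_self (hanti k)) (fA_self (hanti l))
  rw [w4_fA2] at h2
  rw [h2]
  have h3 : ∀ l a c, fr (fun a => Q.b a x) (fun p q => fA (ta D x l) p q) a c =
      ∑ k, Q.T x l k * omM k a c := by
    intro l a c
    rw [← Q.tri_b x l a c]
    show fA (ta D x l) (Q.b a x) (Q.b c x) = (tri D l).val x (Q.b a x) (Q.b c x)
    have hv : (tri D l).val x (Q.b a x) (Q.b c x) = cf2 (tri D l) x (Q.b a x) (Q.b c x) := by
      simp only [CForm.val, cf2, dd, add_apply, sub_apply, ContinuousLinearMap.flip_apply]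
      ring
    have hv2 : ∀ i j, ta D x l i j = cf2 (tri D l) x (e i) (e j) := by
      intro i j
      simp only [ta, CForm.val, cf2, dd, add_apply, sub_apply, ContinuousLinearMap.flip_apply]
      ring
    rw [hv, fA_apply]
    conv_rhs => rw [H880.vec_eq (Q.b a x), H880.vec_eq (Q.b c x)]
    simp only [map_sum, map_smul, sum_apply, smul_apply, smul_eq_mul, hv2, Finset.mul_sum]
    rw [Finset.sum_comm]
    refine Finset.sum_congr rfl fun i _ => Finset.sum_congr rfl fun j _ => ?_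
    ring
  simp only [wdA, h3]
  simp [omM, Fin.sum_univ_three]
  ring

include Q in
/-- positivity of the Gram matrix, complex version -/
theorem gram_pos : ∃ K : ℝ, 0 < K ∧ ∀ (x : R4) (u : Fin 3 → ℂ), ∑ l, ‖u l‖ ^ 2 ≤
    K * (W (fun i j => conj (∑ l, u l * (ta D x l i j : ℂ)))
      (fun i j => ∑ l, u l * (ta D x l i j : ℂ))).re := by
  obtain ⟨c₀, t₀, hc0, ht0, hc, ht⟩ := bounds Q
  refine ⟨9 * t₀ ^ 2, by positivity, fun x u => ?_⟩
  have hreal : ∀ v : Fin 3 → ℝ, ∑ l, v l ^ 2 ≤ 9 * t₀ ^ 2 * W (fun i j => ∑ l, v l * ta D x l i j)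
      (fun i j => ∑ l, v l * ta D x l i j) := by
    intro v
    have e1 : W (fun i j => ∑ l, v l * ta D x l i j) (fun i j => ∑ l, v l * ta D x l i j) =
        ∑ k, ∑ l, v k * v l * W (ta D x k) (ta D x l) := by
      simp only [W, Fin.sum_univ_three]
      ring
    have e2 : ∑ k, ∑ l, v k * v l * W (ta D x k) (ta D x l) =
        2 * ∑ a, (∑ k, v k * Q.T x k a) ^ 2 := by
      simp only [gram Q x, Fin.sum_univ_three]
      ring
    rw [e1, e2]
    have h3 : ∀ l, v l = ∑ a, (∑ k, v k * Q.T x k a) * Ti Q a l x := by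
      intro l
      have h4 : (Q.T x) * (Q.T x)⁻¹ = 1 :=
        Matrix.mul_nonsing_inv _ (isUnit_iff_ne_zero.2 (Q.T_det x))
      have h5 : Matrix.vecMul v ((Q.T x) * (Q.T x)⁻¹) l = v l := by rw [h4, Matrix.vecMul_one]
      rw [← Matrix.vecMul_vecMul] at h5
      rw [← h5]
      rfl
    have h6 : ∀ l, v l ^ 2 ≤ 3 * t₀ ^ 2 * ∑ a, (∑ k, v k * Q.T x k a) ^ 2 := by
      intro l
      conv_lhs => rw [h3 l]
      refine sq_sum_le3.trans ?_
      rw [mul_assoc]
      refine mul_le_mul_of_nonneg_left ?_ (by norm_num)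
      rw [Finset.mul_sum]
      refine Finset.sum_le_sum fun a _ => ?_
      rw [mul_pow, mul_comm]
      refine mul_le_mul_of_nonneg_right ?_ (sq_nonneg _)
      rw [← sq_abs]
      exact pow_le_pow_left₀ (abs_nonneg _) (ht x a l) 2
    have h7 : 0 ≤ ∑ a, (∑ k, v k * Q.T x k a) ^ 2 := Finset.sum_nonneg fun _ _ => sq_nonneg _
    calc ∑ l, v l ^ 2 ≤ ∑ _l : Fin 3, 3 * t₀ ^ 2 * ∑ a, (∑ k, v k * Q.T x k a) ^ 2 :=
          Finset.sum_le_sum fun l _ => h6 l
      _ = 9 * t₀ ^ 2 * ∑ a, (∑ k, v k * Q.T x k a) ^ 2 := by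
          rw [Finset.sum_const, Finset.card_univ, Fintype.card_fin, nsmul_eq_mul]; push_cast; ring
      _ ≤ 9 * t₀ ^ 2 * (2 * ∑ a, (∑ k, v k * Q.T x k a) ^ 2) := by
          refine mul_le_mul_of_nonneg_left ?_ (by positivity)
          linarith
  have h1 := hreal fun l => (u l).re
  have h2 := hreal fun l => (u l).im
  have e1 : ∑ l, ‖u l‖ ^ 2 = ∑ l, (u l).re ^ 2 + ∑ l, (u l).im ^ 2 := by
    rw [← Finset.sum_add_distrib]
    refine Finset.sum_congr rfl fun l _ => ?_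
    rw [← Complex.normSq_eq_norm_sq, Complex.normSq_apply]
    ring
  have e3 : (W (fun i j => conj (∑ l, u l * (ta D x l i j : ℂ)))
      (fun i j => ∑ l, u l * (ta D x l i j : ℂ))).re =
      W (fun i j => ∑ l, (u l).re * ta D x l i j) (fun i j => ∑ l, (u l).re * ta D x l i j) +
      W (fun i j => ∑ l, (u l).im * ta D x l i j) (fun i j => ∑ l, (u l).im * ta D x l i j) := by
    simp only [W, Complex.add_re, Complex.sub_re, Complex.mul_re, Complex.conj_re,
      Complex.conj_im, Complex.re_sum, Complex.im_sum, Complex.mul_im, Complex.ofReal_re,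
      Complex.ofReal_im, mul_zero, sub_zero, zero_add]
    ring
  rw [e1, e3]
  linarith

end Vale.Agent.P247.H880.Co
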