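import Vale.Agent.P247.H880.Coa
import Vale.Agent.P247.H957.Four
import Vale.Agent.P247.H350.E3.Sta

/-!
# P247, S1, E3: Parseval on the cube and the coercivity `COER_statement`
-/

open scoped ContDiff Topology ComplexConjugate
open Set MeasureTheory Filter Metric

noncomputable section

namespace Vale.Agent.P247.H880.Co

open Vale.Agent.P247.H74 Vale.Agent.P247.H574 Vale.Agent.P247.H647 Vale.Agent.P247.H957
  Vale.Agent.P247.H94 Vale.Agent.P247.H350.E3 Vale.Agent.P247.H350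

/-! ## The Fourier basis of `H` -/

instance : IsFiniteMeasure mQ := ⟨by
  rw [Measure.restrict_apply_univ]
  exact measure_Icc_lt_top⟩

theorem memLp_cont {f : R4 → ℂ} (hf : Continuous f) : MemLp f 2 mQ := by
  obtain ⟨C, hC⟩ := (isCompact_Icc (a := (0 : R4)) (b := 1)).exists_bound_of_continuousOn
    hf.continuousOn
  have hae : ∀ᵐ x ∂mQ, ‖f x‖ ≤ C := by
    rw [ae_restrict_iff' measurableSet_Icc]
    exact Eventually.of_forall fun x hx => hC x hx
  exact MemLp.of_bound hf.aestronglyMeasurable C hae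

/-- the characters as elements of `H` -/
def chH (n : Fin 4 → ℤ) : H := (memLp_cont (FF.ch_cont n)).toLp (FF.ch n)

theorem rep_chH (n : Fin 4 → ℤ) : chH n =ᵐ[mQ] FF.ch n := MemLp.coeFn_toLp _

theorem ch_zero (x : R4) : FF.ch 0 x = 1 := by simp [FF.ch]

theorem inner_chH (n : Fin 4 → ℤ) (w : H) : inner ℂ (chH n) w = cf w n := by
  rw [L2.inner_def, cf]
  refine integral_congr_ae ?_
  filter_upwards [rep_chH n] with x hx
  rw [hx, RCLike.inner_apply, FF.ch_neg]
  exact mul_comm _ _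

theorem int_ch {n : Fin 4 → ℤ} (hn : n ≠ 0) : ∫ x in Icc (0 : R4) 1, FF.ch n x = 0 := by
  obtain ⟨j, hj⟩ := Function.ne_iff.1 hn
  have h1 := FF.fc_pd (f := fun _ => (1 : ℂ)) contDiff_const (fun _ _ => rfl) j (-n)
  have h2 : FF.fc (fun x => fderiv ℝ (fun _ : R4 => (1 : ℂ)) x (Pi.single j 1)) (-n) = 0 := by
    unfold FF.fc
    simp
  have h3 : FF.fc (fun _ => (1 : ℂ)) (-n) = ∫ x in Icc (0 : R4) 1, FF.ch n x := by
    unfold FF.fc
    simp
  rw [h2, h3] at h1
  have h4 : (2 * Real.pi * Complex.I * ((-n) j : ℤ) : ℂ) ≠ 0 := by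
    simp only [Pi.neg_apply, Int.cast_neg, ne_eq, mul_eq_zero, OfNat.ofNat_ne_zero,
      Complex.ofReal_eq_zero, Real.pi_ne_zero, Complex.I_ne_zero, or_self, neg_eq_zero,
      Int.cast_eq_zero, false_or]
    exact hj
  rcases mul_eq_zero.1 h1.symm with h | h
  · exact absurd h h4
  · exact h

theorem vol_cube : (mQ univ).toReal = 1 := by
  rw [Measure.restrict_apply_univ]
  rw [Real.volume_Icc_pi]
  simp

theorem orthonormal_chH : Orthonormal ℂ chH := by
  rw [orthonormal_iff_ite]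
  intro m n
  rw [inner_chH, cf]
  have h1 : ∫ x in Icc (0 : R4) 1, FF.ch (-m) x * chH n x =
      ∫ x in Icc (0 : R4) 1, FF.ch (n - m) x := by
    refine integral_congr_ae ?_
    filter_upwards [rep_chH n] with x hx
    rw [hx, ← FF.ch_add]
    congr 1
    abel
  rw [h1]
  split_ifs with h
  · rw [h, sub_self]
    simp only [ch_zero]
    rw [integral_const]
    simp only [measureReal_def]
    rw [vol_cube]
    simp
  · exact int_ch (sub_ne_zero.2 (Ne.symm h))

theorem span_chH : (Submodule.span ℂ (range chH))ᗮ = ⊥ := by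
  rw [eq_bot_iff]
  intro w hw
  rw [Submodule.mem_bot]
  have h1 : ∀ n, cf w n = 0 := by
    intro n
    rw [← inner_chH]
    exact (Submodule.mem_orthogonal _ _).1 hw _ (Submodule.subset_span ⟨n, rfl⟩)
  have h2 : (w : R4 → ℂ) =ᵐ[mQ] 0 := by
    refine eq_zero_of_fourier (Lp.memLp w) fun k => ?_
    have := h1 (-k)
    unfold cf at this
    rw [neg_neg] at this
    rw [← this]
    refine integral_congr_ae (Eventually.of_forall fun x => ?_)
    have h2 : Complex.exp ((2 * Real.pi * ∑ i, (k i : ℝ) * x i : ℝ) * Complex.I) = FF.ch k x := by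
      unfold FF.ch
      congr 1
      push_cast
      ring
    simp only [h2]
  exact (Lp.eq_zero_iff_ae_eq_zero).2 h2

/-- the Fourier basis -/
def basH : HilbertBasis (Fin 4 → ℤ) ℂ H := HilbertBasis.mkOfOrthogonalEqBot orthonormal_chH span_chH

theorem basH_coe : ⇑basH = chH := HilbertBasis.coe_mkOfOrthogonalEqBot _ _

/-- Parseval on the cube -/
theorem pars (f g : H) : HasSum (fun n => conj (cf f n) * cf g n) (inner ℂ f g) := by
  have h := basH.hasSum_inner_mul_inner f g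
  rw [basH_coe] at h
  have h2 : (fun n => inner ℂ f (chH n) * inner ℂ (chH n) g) = fun n => conj (cf f n) * cf g n := by
    funext n
    rw [inner_chH, ← inner_conj_symm f, inner_chH]
  rwa [h2] at h

/-! ## The wedge pairing -/

/-- `∫ w4 (conj η, ζ)` -/
def wH (η ζ : Fin 4 → Fin 4 → H) : ℂ :=
  inner ℂ (η 0 1) (ζ 2 3) - inner ℂ (η 0 2) (ζ 1 3) + inner ℂ (η 0 3) (ζ 1 2) +
    inner ℂ (η 1 2) (ζ 0 3) - inner ℂ (η 1 3) (ζ 0 2) + inner ℂ (η 2 3) (ζ 0 1)

theorem int_six {f1 f2 f3 f4 f5 f6 : R4 → ℂ} (h1 : Integrable f1 mQ) (h2 : Integrable f2 mQ)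
    (h3 : Integrable f3 mQ) (h4 : Integrable f4 mQ) (h5 : Integrable f5 mQ)
    (h6 : Integrable f6 mQ) : ∫ x, (f1 x - f2 x + f3 x + f4 x - f5 x + f6 x) ∂mQ =
    ∫ x, f1 x ∂mQ - ∫ x, f2 x ∂mQ + ∫ x, f3 x ∂mQ + ∫ x, f4 x ∂mQ - ∫ x, f5 x ∂mQ +
      ∫ x, f6 x ∂mQ := by
  have i2 : Integrable (fun x => f1 x - f2 x) mQ := h1.sub h2
  have i3 : Integrable (fun x => f1 x - f2 x + f3 x) mQ := i2.add h3
  have i4 : Integrable (fun x => f1 x - f2 x + f3 x + f4 x) mQ := i3.add h4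
  have i5 : Integrable (fun x => f1 x - f2 x + f3 x + f4 x - f5 x) mQ := i4.sub h5
  rw [integral_add i5 h6, integral_sub i4 h5, integral_add i3 h4, integral_add i2 h3,
    integral_sub h1 h2]

theorem wH_int (η ζ : Fin 4 → Fin 4 → H) : Integrable (fun x => W (fun i j => conj (η i j x))
    (fun i j => ζ i j x)) mQ ∧
    wH η ζ = ∫ x, W (fun i j => conj (η i j x)) (fun i j => ζ i j x) ∂mQ := by
  have hi : ∀ i j k l, Integrable (fun x => conj (η i j x) * ζ k l x) mQ := by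
    intro i j k l
    have := L2.integrable_inner (𝕜 := ℂ) (η i j) (ζ k l)
    refine this.congr (Eventually.of_forall fun x => ?_)
    show inner ℂ (η i j x) (ζ k l x) = _
    rw [RCLike.inner_apply]
    exact mul_comm _ _
  have he : ∀ i j k l, inner ℂ (η i j) (ζ k l) = ∫ x, conj (η i j x) * ζ k l x ∂mQ := by
    intro i j k l
    rw [L2.inner_def]
    refine integral_congr_ae (Eventually.of_forall fun x => ?_)
    show inner ℂ (η i j x) (ζ k l x) = _
    rw [RCLike.inner_apply]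
    exact mul_comm _ _
  constructor
  · unfold W
    exact ((((((hi 0 1 2 3).sub (hi 0 2 1 3)).add (hi 0 3 1 2)).add (hi 1 2 0 3)).sub
      (hi 1 3 0 2)).add (hi 2 3 0 1))
  · unfold wH W
    rw [he, he, he, he, he, he]
    exact (int_six (hi 0 1 2 3) (hi 0 2 1 3) (hi 0 3 1 2) (hi 1 2 0 3) (hi 1 3 0 2)
      (hi 2 3 0 1)).symm

theorem wH_sum (η ζ : Fin 4 → Fin 4 → H) :
    HasSum (fun n => W (fun i j => conj (cf (η i j) n)) (fun i j => cf (ζ i j) n)) (wH η ζ) := by
  unfold W wH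
  exact ((((((pars (η 0 1) (ζ 2 3)).sub (pars (η 0 2) (ζ 1 3))).add (pars (η 0 3) (ζ 1 2))).add
    (pars (η 1 2) (ζ 0 3))).sub (pars (η 1 3) (ζ 0 2))).add (pars (η 2 3) (ζ 0 1)))

/-- two arrays annihilated by `n ∧` have zero wedge product -/
theorem wedge_zero {n : Fin 4 → ℂ} (hn : ∃ p, n p ≠ 0) {A B : Fin 4 → Fin 4 → ℂ}
    (hA : ∀ i j, A j i = - A i j) (hB : ∀ i j, B j i = - B i j)
    (hA' : ∀ i j l, n i * A j l + n j * A l i + n l * A i j = 0)
    (hB' : ∀ i j l, n i * B j l + n j * B l i + n l * B i j = 0) : W A B = 0 := by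
  obtain ⟨p, hp⟩ := hn
  have hA2 : ∀ i j, n p * A i j = n i * A p j - n j * A p i := by
    intro i j
    have h := hA' i j p
    rw [hA p j] at h
    linear_combination h
  have hB2 : ∀ i j, n p * B i j = n i * B p j - n j * B p i := by
    intro i j
    have h := hB' i j p
    rw [hB p j] at h
    linear_combination h
  have h1 : (n p) ^ 2 * W A B = W (fun i j => n p * A i j) (fun i j => n p * B i j) := by
    unfold W; ring
  have h2 : W (fun i j => n p * A i j) (fun i j => n p * B i j) = 0 := by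
    simp only [hA2, hB2]
    unfold W
    ring
  rw [h2] at h1
  rcases mul_eq_zero.1 h1 with h | h
  · exact absurd (pow_eq_zero_iff (two_ne_zero) |>.1 h) hp
  · exact h

theorem cf_neg (w : H) (n : Fin 4 → ℤ) : cf (-w) n = - cf w n := by
  rw [← inner_chH, ← inner_chH, inner_neg_right]

theorem cf_anti {η : Fin 4 → Fin 4 → H} (h : Anti η) (n : Fin 4 → ℤ) (i j : Fin 4) :
    cf (η j i) n = - cf (η i j) n := by rw [h i j, cf_neg]

/-- the pairing of weakly closed forms is the pairing of the mean values -/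
theorem wH_closed {η ζ : Fin 4 → Fin 4 → H} (h1 : Anti η) (h2 : Anti ζ) (h3 : Clo η) (h4 : Clo ζ) :
    wH η ζ = W (fun i j => conj (cf (η i j) 0)) (fun i j => cf (ζ i j) 0) := by
  refine (wH_sum η ζ).unique (hasSum_single 0 fun n hn => ?_)
  obtain ⟨p, hp⟩ := Function.ne_iff.1 hn
  refine wedge_zero (n := fun i => (n i : ℂ)) ⟨p, by exact_mod_cast hp⟩ (fun i j => ?_)
    (fun i j => cf_anti h2 n i j) (fun i j l => ?_) (fun i j l => h4 n i j l)
  · rw [cf_anti h1 n i j, map_neg]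
  · have := congrArg conj (h3 n i j l)
    simpa only [map_add, map_mul, map_intCast, map_zero] using this

/-! ## Coercivity -/

theorem tc_cont (D : Data) (l : Fin 3) (i j : Fin 4) : Continuous (tc D l i j) := by
  unfold tc CForm.val
  have h1 : ContDiff ℝ ∞ (fderiv ℝ (tri D l).lam) := (tri D l).lam_smooth.fderiv_right (by simp)
  exact Complex.continuous_ofReal.comp (((continuous_const.add
    ((h1.continuous.clm_apply continuous_const).clm_apply continuous_const))).sub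
    ((h1.continuous.clm_apply continuous_const).clm_apply continuous_const))

theorem PP_ae (D : Data) (η : Fin 4 → Fin 4 → H) (l : Fin 3) : PP D η l =ᵐ[mQ] fun x =>
    W (fun i j => η i j x) (fun i j => tc D l i j x) := by
  unfold PP
  filter_upwards [mulOp_ae (tc_cont D l 2 3) (η 0 1), mulOp_ae (tc_cont D l 1 3) (η 0 2),
    mulOp_ae (tc_cont D l 1 2) (η 0 3), mulOp_ae (tc_cont D l 0 3) (η 1 2),
    mulOp_ae (tc_cont D l 0 2) (η 1 3), mulOp_ae (tc_cont D l 0 1) (η 2 3),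
    Lp.coeFn_add (mulOp (tc D l 2 3) (η 0 1) - mulOp (tc D l 1 3) (η 0 2) +
      mulOp (tc D l 1 2) (η 0 3) + mulOp (tc D l 0 3) (η 1 2) - mulOp (tc D l 0 2) (η 1 3))
      (mulOp (tc D l 0 1) (η 2 3)),
    Lp.coeFn_sub (mulOp (tc D l 2 3) (η 0 1) - mulOp (tc D l 1 3) (η 0 2) +
      mulOp (tc D l 1 2) (η 0 3) + mulOp (tc D l 0 3) (η 1 2)) (mulOp (tc D l 0 2) (η 1 3)),
    Lp.coeFn_add (mulOp (tc D l 2 3) (η 0 1) - mulOp (tc D l 1 3) (η 0 2) +
      mulOp (tc D l 1 2) (η 0 3)) (mulOp (tc D l 0 3) (η 1 2)),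
    Lp.coeFn_add (mulOp (tc D l 2 3) (η 0 1) - mulOp (tc D l 1 3) (η 0 2))
      (mulOp (tc D l 1 2) (η 0 3)),
    Lp.coeFn_sub (mulOp (tc D l 2 3) (η 0 1)) (mulOp (tc D l 1 3) (η 0 2))]
    with x m1 m2 m3 m4 m5 m6 a1 a2 a3 a4 a5
  rw [a1, Pi.add_apply, a2, Pi.sub_apply, a3, Pi.add_apply, a4, Pi.add_apply, a5, Pi.sub_apply,
    m1, m2, m3, m4, m5, m6]
  unfold W
  ring

theorem norm_sq_int (w : H) : Integrable (fun x => ‖w x‖ ^ 2) mQ ∧
    ‖w‖ ^ 2 = ∫ x, ‖w x‖ ^ 2 ∂mQ := by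
  have h := L2.integrable_inner (𝕜 := ℂ) w w
  have h1 : ∀ x, inner ℂ (w x) (w x) = ((‖w x‖ ^ 2 : ℝ) : ℂ) := fun x => by
    rw [inner_self_eq_norm_sq_to_K]; simp
  constructor
  · have h2 := h.re
    refine h2.congr (Eventually.of_forall fun x => ?_)
    show RCLike.re (inner ℂ (w x) (w x)) = _
    rw [h1]
    exact Complex.ofReal_re _
  · exact rep_norm_sq (φ := w) (EventuallyEq.refl _ _)

/-- `COER_statement` -/
theorem COER : COER_statement := by
  intro D Q
  obtain ⟨C, K, hC, hK, hpt⟩ := pt_cplx Q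
  refine ⟨K, hK, fun η hη hη' h0 => ?_⟩
  have hw : wH η η = 0 := by
    rw [wH_closed hη hη hη' hη']
    simp [W, h0]
  obtain ⟨hi, he⟩ := wH_int η η
  rw [hw] at he
  have hre : ∫ x, (W (fun i j => conj (η i j x)) (fun i j => η i j x)).re ∂mQ = 0 := by
    have := integral_re hi
    have h2 : ∫ x, (W (fun i j => conj (η i j x)) (fun i j => η i j x)).re ∂mQ =
      (∫ x, W (fun i j => conj (η i j x)) (fun i j => η i j x) ∂mQ).re := this
    rw [h2, ← he]; rfl
  have hanti : ∀ᵐ x ∂mQ, ∀ i j, η j i x = - η i j x := by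
    rw [ae_all_iff]; intro i
    rw [ae_all_iff]; intro j
    filter_upwards [Lp.coeFn_neg (η i j)] with x hx
    rw [hη i j, hx]; rfl
  have hPP : ∀ᵐ x ∂mQ, ∀ l, PP D η l x = W (fun i j => η i j x) (fun i j => tc D l i j x) := by
    rw [ae_all_iff]; intro l
    exact PP_ae D η l
  have hineq : ∀ᵐ x ∂mQ, ∑ i, ∑ j, ‖η i j x‖ ^ 2 ≤ K * ∑ l, ‖PP D η l x‖ ^ 2
      - C * (W (fun i j => conj (η i j x)) (fun i j => η i j x)).re := by
    filter_upwards [hanti, hPP] with x h1 h2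
    have := hpt x (fun i j => η i j x) h1
    simp only [h2]
    exact this
  have iL : Integrable (fun x => ∑ i, ∑ j, ‖η i j x‖ ^ 2) mQ :=
    integrable_finsetSum _ fun i _ => integrable_finsetSum _ fun j _ => (norm_sq_int _).1
  have iR : Integrable (fun x => K * ∑ l, ‖PP D η l x‖ ^ 2) mQ :=
    (integrable_finsetSum _ fun l _ => (norm_sq_int _).1).const_mul K
  have iW : Integrable (fun x => C * (W (fun i j => conj (η i j x)) (fun i j => η i j x)).re) mQ :=
    (hi.re).const_mul C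
  have h3 := integral_mono_ae iL (iR.sub iW) hineq
  have h4 : ∫ x, ∑ i, ∑ j, ‖η i j x‖ ^ 2 ∂mQ = ∑ i, ∑ j, ‖η i j‖ ^ 2 := by
    rw [integral_finsetSum _ fun i _ => integrable_finsetSum _ fun j _ => (norm_sq_int (η i j)).1]
    refine Finset.sum_congr rfl fun i _ => ?_
    rw [integral_finsetSum _ fun j _ => (norm_sq_int (η i j)).1]
    exact Finset.sum_congr rfl fun j _ => (norm_sq_int _).2.symm
  have h5 : ∫ x, K * ∑ l, ‖PP D η l x‖ ^ 2 ∂mQ = K * ∑ l, ‖PP D η l‖ ^ 2 := by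
    rw [integral_const_mul, integral_finsetSum _ fun l _ => (norm_sq_int (PP D η l)).1]
    congr 1
    exact Finset.sum_congr rfl fun l _ => (norm_sq_int _).2.symm
  have h6 : ∫ x, (K * ∑ l, ‖PP D η l x‖ ^ 2
      - C * (W (fun i j => conj (η i j x)) (fun i j => η i j x)).re) ∂mQ =
      K * ∑ l, ‖PP D η l‖ ^ 2 := by
    rw [integral_sub iR iW, h5, integral_const_mul, hre, mul_zero, sub_zero]
  rw [h4] at h3
  exact h3.trans h6.le

end Vale.Agent.P247.H880.Co
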