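import Vale.Agent.P247.H880.ILa
import Vale.Agent.P247.H647.Sta

/-!
# P247, Stage 2, S2-IL, part b: constant algebra, the coefficients of the Lie brackets
-/

open scoped ContDiff Topology
open Set MeasureTheory Filter Metric

noncomputable section

namespace Vale.Agent.P247.H880

open Vale.Agent.P247.H74 Vale.Agent.P247.H574 Vale.Agent.P247.H647

/-! ## integration by parts for sections -/

variable {E : Type*} [NormedAddCommGroup E] [InnerProductSpace ℂ E]

theorem per_inner {s t : R4 → E} (hs : QS s) (ht : QS t) :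
    Per4 fun x => inner ℂ (s x) (t x) := by
  intro k x
  simp only [hs k x, ht k x, inner_smul_left, inner_smul_right]
  rw [← mul_assoc]
  rw [show Complex.exp (2 * Real.pi * Complex.I * k 0 * x 1) = ph k x from rfl, mul_comm (ph k x)]
  rw [show (starRingEnd ℂ) (ph k x) * ph k x = 1 from ph_star k x, one_mul]

theorem fderiv_inner' (A : R4 → R4 →L[ℝ] ℝ) {s t : R4 → E} (hs : Differentiable ℝ s)
    (ht : Differentiable ℝ t) (x u : R4) : fderiv ℝ (fun x => inner ℂ (s x) (t x)) x u =
      inner ℂ (cov A s x u) (t x) + inner ℂ (s x) (cov A t x u) := by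
  rw [fderiv_inner_apply ℂ (hs x) (ht x)]
  unfold cov
  rw [inner_sub_left, inner_sub_right, inner_smul_left, inner_smul_right]
  simp only [map_mul, Complex.conj_I, Complex.conj_ofReal]
  ring

/-- `∫ ⟨s, ∇_b t⟩ = - ∫ ⟨∇_b s + (div b) s, t⟩` -/
theorem ibp_sec {A : R4 → R4 →L[ℝ] ℝ} {s t : R4 → E} (hs : ContDiff ℝ ∞ s) (ht : ContDiff ℝ ∞ t)
    (hA : ContDiff ℝ ∞ A)
    (hs' : QS s) (ht' : QS t) {b : R4 → R4} (hb : ContDiff ℝ ∞ b) (hb' : Per4 b) :
    ∫ x in cube, inner ℂ (s x) (cov A t x (b x)) =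
      - ∫ x in cube, inner ℂ (cov A s x (b x) + (dv b x : ℂ) • s x) (t x) := by
  have hn : (∞ : WithTop ℕ∞) ≠ 0 := by simp
  have hi : ContDiff ℝ ∞ fun x => inner ℂ (s x) (t x) := hs.inner ℂ ht
  have h := ibp (fun x => inner ℂ (s x) (t x)) (hi.of_le (by exact_mod_cast le_top))
    (per_inner hs' ht') b (hb.of_le (by exact_mod_cast le_top)) hb'
  simp only [fderiv_inner' A (hs.differentiable hn) (ht.differentiable hn)] at h
  have c1 : Continuous fun x => inner ℂ (cov A s x (b x)) (t x) :=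
    (contDiff_cov hA hs hb).continuous.inner ht.continuous
  have c2 : Continuous fun x => inner ℂ (s x) (cov A t x (b x)) :=
    hs.continuous.inner (contDiff_cov hA ht hb).continuous
  have c3 : Continuous fun x => dv b x • inner ℂ (s x) (t x) :=
    (contDiff_dv hb).continuous.smul hi.continuous
  have i1 : IntegrableOn (fun x => inner ℂ (cov A s x (b x)) (t x)) cube := c1.integrableOn_Icc
  have i2 : IntegrableOn (fun x => inner ℂ (s x) (cov A t x (b x))) cube := c2.integrableOn_Icc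
  have i3 : IntegrableOn (fun x => dv b x • inner ℂ (s x) (t x)) cube := c3.integrableOn_Icc
  rw [integral_add i1 i2] at h
  have h2 : ∫ x in cube, inner ℂ (cov A s x (b x) + (dv b x : ℂ) • s x) (t x) =
      (∫ x in cube, inner ℂ (cov A s x (b x)) (t x)) +
        ∫ x in cube, dv b x • inner ℂ (s x) (t x) := by
    rw [← integral_add i1 i3]
    refine integral_congr_ae (Eventually.of_forall fun x => ?_)
    show inner ℂ (cov A s x (b x) + (dv b x : ℂ) • s x) (t x) =
      inner ℂ (cov A s x (b x)) (t x) + dv b x • inner ℂ (s x) (t x)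
    rw [inner_add_left, inner_smul_left, Complex.conj_ofReal, Complex.real_smul]
  rw [h2]
  linear_combination h

/-! ## constant algebra -/

theorem opM_mul (M N : Matrix (Fin 2) (Fin 2) ℂ) : opM (M * N) = opM M * opM N :=
  map_mul (Matrix.toEuclideanCLM (n := Fin 2) (𝕜 := ℂ)) M N

theorem opM_inner (M : Matrix (Fin 2) (Fin 2) ℂ) (u v : Sp) :
    inner ℂ (opM M u) v = inner ℂ u (opM (M.conjTranspose) v) := by
  have : opM (M.conjTranspose) = ContinuousLinearMap.adjoint (opM M) := by
    show Matrix.toEuclideanCLM (n := Fin 2) (𝕜 := ℂ) (star M) = _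
    rw [map_star]
    rfl
  rw [this, ContinuousLinearMap.adjoint_inner_right]

theorem opM_smul (c : ℂ) (M : Matrix (Fin 2) (Fin 2) ℂ) : opM (c • M) = c • opM M :=
  map_smul (Matrix.toEuclideanCLM (n := Fin 2) (𝕜 := ℂ)) c M

theorem opM_add (M N : Matrix (Fin 2) (Fin 2) ℂ) : opM (M + N) = opM M + opM N :=
  map_add (Matrix.toEuclideanCLM (n := Fin 2) (𝕜 := ℂ)) M N

theorem opM_sub (M N : Matrix (Fin 2) (Fin 2) ℂ) : opM (M - N) = opM M - opM N :=
  map_sub (Matrix.toEuclideanCLM (n := Fin 2) (𝕜 := ℂ)) M N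

theorem opM_neg (M : Matrix (Fin 2) (Fin 2) ℂ) : opM (-M) = - opM M :=
  map_neg (Matrix.toEuclideanCLM (n := Fin 2) (𝕜 := ℂ)) M

theorem opM_one : opM 1 = 1 := map_one (Matrix.toEuclideanCLM (n := Fin 2) (𝕜 := ℂ))

/-- `σ_c* σ_a` for `c ≠ a`, and `0` for `c = a` -/
def mmM (c a : Fin 4) : Matrix (Fin 2) (Fin 2) ℂ :=
  (sigM c).conjTranspose * sigM a - (if c = a then 1 else 0)

def mm (c a : Fin 4) : En := opM (mmM c a)

theorem mmM_anti (c a : Fin 4) : mmM c a = - mmM a c := by
  fin_cases c <;> fin_cases a <;> ext i j <;> fin_cases i <;> fin_cases j <;>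
    simp [mmM, sigM, pauM, Matrix.mul_apply, Fin.sum_univ_two]

theorem mm_anti (c a : Fin 4) : mm c a = - mm a c := by
  rw [mm, mmM_anti, opM_neg]; rfl

theorem sig_inner (a c : Fin 4) (u v : Sp) :
    inner ℂ (sig a u) (sig c v) = (if c = a then inner ℂ u v else 0) + inner ℂ (mm c a u) v := by
  have h : opM ((sigM c).conjTranspose * sigM a) = (if c = a then 1 else 0) + mm c a := by
    rw [mm, mmM, opM_sub]
    split_ifs
    · rw [opM_one]; abel
    · rw [show opM 0 = 0 from map_zero (Matrix.toEuclideanCLM (n := Fin 2) (𝕜 := ℂ))]; abel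
  have h2 : inner ℂ (sig a u) (sig c v) = inner ℂ (opM ((sigM c).conjTranspose * sigM a) u) v := by
    rw [opM_mul]
    show _ = inner ℂ (opM ((sigM c).conjTranspose) (opM (sigM a) u)) v
    rw [opM_inner, Matrix.conjTranspose_conjTranspose]
    rfl
  rw [h2, h]
  split_ifs
  · simp
  · simp

/-- the curvature term -/
theorem mm_curv (F : Fin 4 → Fin 4 → ℝ) (hF : ∀ a c, F a c = - F c a) :
    ∑ c, ∑ a, (F c a : ℂ) • mm c a = (2 * Complex.I) • ∑ k, (hat F k : ℂ) • pau k := by
  have key : ∑ c, ∑ a, (F c a : ℂ) • mmM c a = (2 * Complex.I) • ∑ k, (hat F k : ℂ) • pauM k := by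
    have h0 : ∀ a, F a a = 0 := fun a => by have := hF a a; linarith
    ext i j
    simp only [Fin.sum_univ_four, Fin.sum_univ_three, hat, h0, hF 1 0, hF 2 0, hF 3 0, hF 2 1,
      hF 3 2, hF 3 1]
    fin_cases i <;> fin_cases j <;>
    · simp [mmM, sigM, pauM, Matrix.mul_apply, Fin.sum_univ_two]
      ring_nf
      try (simp only [Complex.I_sq]; ring)
  have h := congrArg opM key
  simp only [opM_smul] at h
  have hs : ∀ {ι : Type} (S : Finset ι) (f : ι → Matrix (Fin 2) (Fin 2) ℂ),
      opM (∑ i ∈ S, f i) = ∑ i ∈ S, opM (f i) := fun S f =>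
    map_sum (Matrix.toEuclideanCLM (n := Fin 2) (𝕜 := ℂ)) f S
  simp only [hs, opM_smul] at h
  exact h

/-! ## coefficients of a vector in the frame -/

variable {D : Data} (Q : Quat D)

/-- the matrix of the frame -/
def fm (x : R4) : Matrix (Fin 4) (Fin 4) ℝ := Matrix.of fun i a => Q.b a x i

/-- the coefficients of `v` in the frame at `x` -/
def co (x v : R4) (a : Fin 4) : ℝ := ∑ i, (fm Q x).adjugate a i * v i

theorem co_spec (x v : R4) : v = ∑ a, co Q x v a • Q.b a x := by
  have h1 : (fm Q x) * (fm Q x).adjugate = 1 := by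
    rw [Matrix.mul_adjugate, show (fm Q x).det = 1 from Q.b_det x, one_smul]
  have h2 : (fm Q x).mulVec ((fm Q x).adjugate.mulVec v) = v := by
    rw [Matrix.mulVec_mulVec, h1, Matrix.one_mulVec]
  conv_lhs => rw [← h2]
  ext i
  simp only [Matrix.mulVec, dotProduct, Finset.sum_apply, Pi.smul_apply, smul_eq_mul, co, fm,
    Matrix.of_apply]
  exact Finset.sum_congr rfl fun a _ => mul_comm _ _

theorem contDiff_adj (a i : Fin 4) : ContDiff ℝ ∞ fun x => (fm Q x).adjugate a i := by
  simp only [Matrix.adjugate_apply, Matrix.det_apply']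
  refine ContDiff.sum fun σ _ => ContDiff.mul contDiff_const (contDiff_prod fun j _ => ?_)
  by_cases h : σ j = i
  · simp only [h, Matrix.updateRow_self]
    exact contDiff_const
  · simp only [Matrix.updateRow_ne h, fm, Matrix.of_apply]
    exact contDiff_pi.1 (Q.b_smooth j) (σ j)

theorem contDiff_co {v : R4 → R4} (hv : ContDiff ℝ ∞ v) (a : Fin 4) :
    ContDiff ℝ ∞ fun x => co Q x (v x) a := by
  unfold co
  exact ContDiff.sum fun i _ => (contDiff_adj Q a i).mul (contDiff_pi.1 hv i)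

theorem per_co {v : R4 → R4} (hv : Per4 v) (a : Fin 4) : Per4 fun x => co Q x (v x) a := by
  intro k x
  simp only [co, fm, hv k x]
  simp only [Q.b_per _ k x]

/-- Lie brackets of the frame, `[b c, b a]` -/
def lie (c a : Fin 4) (x : R4) : R4 :=
  fderiv ℝ (Q.b a) x (Q.b c x) - fderiv ℝ (Q.b c) x (Q.b a x)

theorem contDiff_lie (c a : Fin 4) : ContDiff ℝ ∞ (lie Q c a) := by
  have h : ∀ a, ContDiff ℝ ∞ (fderiv ℝ (Q.b a)) := fun a => (Q.b_smooth a).fderiv_right (by simp)
  exact ((h a).clm_apply (Q.b_smooth c)).sub ((h c).clm_apply (Q.b_smooth a))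

theorem per_lie (c a : Fin 4) : Per4 (lie Q c a) := by
  intro k x
  simp only [lie, per_fderiv (Q.b_per _) k x, Q.b_per _ k x]

/-- the first order coefficients of the Lichnerowicz formula -/
def BB (d : Fin 4) (x : R4) : En :=
  -((1 / 2 : ℂ) • ∑ c, ∑ a, (co Q x (lie Q c a x) d : ℂ) • mm c a) -
    ∑ c, (dv (Q.b c) x : ℂ) • mm c d

theorem contDiff_BB (d : Fin 4) : ContDiff ℝ ∞ (BB Q d) := by
  unfold BB
  refine ContDiff.sub (ContDiff.neg (ContDiff.const_smul _ (ContDiff.sum fun c _ =>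
    ContDiff.sum fun a _ => ?_))) (ContDiff.sum fun c _ => ?_)
  · exact (Complex.ofRealCLM.contDiff.comp (contDiff_co Q (contDiff_lie Q c a) d)).smul
      contDiff_const
  · exact (Complex.ofRealCLM.contDiff.comp (contDiff_dv (Q.b_smooth c))).smul contDiff_const

theorem per_BB (d : Fin 4) : Per4 (BB Q d) := by
  intro k x
  have h : ∀ c a, co Q (tr k x) (lie Q c a (tr k x)) d = co Q x (lie Q c a x) d :=
    fun c a => per_co Q (per_lie Q c a) d k x
  simp only [BB, h, per_dv (Q.b_per _) k x]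

end Vale.Agent.P247.H880
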