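import Vale.Agent.P247.H880.RBc
import Vale.Agent.P247.H931.Sta2
import Vale.Agent.P247.H350.Red5

/-!
# RED2: the equivariant Fredholm Borsuk-Ulam theorem from the periodic one

The bundles over the two-torus are stabilised by a trivial Hilbert bundle and trivialised
(part c); the operators become periodic operators on a fixed Hilbert space, and `FBU_statement`
applies.
-/

open Set Filter Topology Asymptotics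

namespace Vale.Agent.P247.H880.RB

open Vale.Agent.P247.H931

set_option linter.unusedSectionVars false

noncomputable section

variable {X Y : Type} [NormedAddCommGroup X] [InnerProductSpace ℂ X] [CompleteSpace X]
  [NormedAddCommGroup Y] [InnerProductSpace ℂ Y] [CompleteSpace Y]

variable (X) in
/-- stabilising space -/
def TX : Type := L2 (E4 X)

instance : NormedAddCommGroup (TX X) := inferInstanceAs (NormedAddCommGroup (L2 (E4 X)))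
instance : InnerProductSpace ℂ (TX X) := inferInstanceAs (InnerProductSpace ℂ (L2 (E4 X)))
instance : CompleteSpace (TX X) := inferInstanceAs (CompleteSpace (L2 (E4 X)))

variable (X Y) in
/-- the fixed Hilbert space -/
def TT : Type := WithLp 2 (TX X × TX Y)

instance : NormedAddCommGroup (TT X Y) :=
  inferInstanceAs (NormedAddCommGroup (WithLp 2 (TX X × TX Y)))
instance : InnerProductSpace ℂ (TT X Y) :=
  inferInstanceAs (InnerProductSpace ℂ (WithLp 2 (TX X × TX Y)))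
instance : CompleteSpace (TT X Y) := inferInstanceAs (CompleteSpace (WithLp 2 (TX X × TX Y)))

variable (X Y) in
abbrev SS : Type := TX X × TX Y

/-- the trivialisation, as operators on `TX` -/
def BI (U₁ U₂ : X ≃L[ℂ] X) (c ξ : ℝ × ℝ) : X × TX X →L[ℂ] TX X := AI U₁ U₂ c ξ

def BO (U₁ U₂ : X ≃L[ℂ] X) (c ξ : ℝ × ℝ) : TX X →L[ℂ] X × TX X := AO U₁ U₂ c ξ

theorem continuous_BI (U₁ U₂ : X ≃L[ℂ] X) (c : ℝ × ℝ) : Continuous (BI U₁ U₂ c) :=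
  continuous_AI U₁ U₂ c
theorem continuous_BO (U₁ U₂ : X ≃L[ℂ] X) (c : ℝ × ℝ) : Continuous (BO U₁ U₂ c) :=
  continuous_AO U₁ U₂ c
theorem BI_BO (U₁ U₂ : X ≃L[ℂ] X) (c ξ : ℝ × ℝ) (t : TX X) :
    BI U₁ U₂ c ξ (BO U₁ U₂ c ξ t) = t := AI_AO U₁ U₂ c ξ t
theorem BO_BI (U₁ U₂ : X ≃L[ℂ] X) (c ξ : ℝ × ℝ) (z : X × TX X) :
    BO U₁ U₂ c ξ (BI U₁ U₂ c ξ z) = z := AO_AI U₁ U₂ c ξ z
theorem BI_near (U₁ U₂ : X ≃L[ℂ] X) (c : ℝ × ℝ) {ξ : ℝ × ℝ} (h : ‖ξ - c‖ ≤ 1 / 8) :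
    BI U₁ U₂ c ξ = BI U₁ U₂ c c := AI_near U₁ U₂ c h
theorem BO_near (U₁ U₂ : X ≃L[ℂ] X) (c : ℝ × ℝ) {ξ : ℝ × ℝ} (h : ‖ξ - c‖ ≤ 1 / 8) :
    BO U₁ U₂ c ξ = BO U₁ U₂ c c := AO_near U₁ U₂ c h
theorem BI_per1 {U₁ U₂ : X ≃L[ℂ] X} (c : ℝ × ℝ) (h : ∀ ψ, U₁ (U₂ ψ) = U₂ (U₁ ψ)) (ξ : ℝ × ℝ)
    (ψ : X) (t : TX X) : BI U₁ U₂ c (ξ + (1, 0)) (U₁ ψ, t) = BI U₁ U₂ c ξ (ψ, t) :=
  AI_per1 c h ξ ψ t
theorem BI_per2 {U₁ U₂ : X ≃L[ℂ] X} (c : ℝ × ℝ) (ξ : ℝ × ℝ)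
    (ψ : X) (t : TX X) : BI U₁ U₂ c (ξ + (0, 1)) (U₂ ψ, t) = BI U₁ U₂ c ξ (ψ, t) :=
  AI_per2 c ξ ψ t
theorem BO_per1 {U₁ U₂ : X ≃L[ℂ] X} (c : ℝ × ℝ) (h : ∀ ψ, U₁ (U₂ ψ) = U₂ (U₁ ψ)) (ξ : ℝ × ℝ)
    (t : TX X) : BO U₁ U₂ c (ξ + (1, 0)) t = (U₁ (BO U₁ U₂ c ξ t).1, (BO U₁ U₂ c ξ t).2) :=
  AO_per1 c h ξ t
theorem BO_per2 {U₁ U₂ : X ≃L[ℂ] X} (c : ℝ × ℝ) (ξ : ℝ × ℝ)
    (t : TX X) : BO U₁ U₂ c (ξ + (0, 1)) t = (U₂ (BO U₁ U₂ c ξ t).1, (BO U₁ U₂ c ξ t).2) :=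
  AO_per2 c ξ t

/-- identification with the product -/
def eT : TT X Y →L[ℂ] SS X Y := (WithLp.prodContinuousLinearEquiv 2 ℂ (TX X) (TX Y) :
  WithLp 2 (TX X × TX Y) →L[ℂ] SS X Y)

def eS : SS X Y →L[ℂ] TT X Y :=
  ((WithLp.prodContinuousLinearEquiv 2 ℂ (TX X) (TX Y)).symm :
    SS X Y →L[ℂ] WithLp 2 (TX X × TX Y))

theorem eT_eS (z : SS X Y) : eT (eS z) = z :=
  (WithLp.prodContinuousLinearEquiv 2 ℂ (TX X) (TX Y)).apply_symm_apply z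

theorem eS_eT (z : TT X Y) : eS (eT z) = z :=
  (WithLp.prodContinuousLinearEquiv 2 ℂ (TX X) (TX Y)).symm_apply_apply z

section

variable (U₁ U₂ : X ≃L[ℂ] X) (V₁ V₂ : Y ≃L[ℂ] Y) (c : ℝ × ℝ)

/-- domain side: `TT → X × SS` -/
def PX (ξ : ℝ × ℝ) : TT X Y →L[ℂ] X × SS X Y :=
  (ContinuousLinearMap.inl ℂ X (SS X Y)).comp ((ContinuousLinearMap.fst ℂ X (TX X)).comp
    ((BO U₁ U₂ c ξ).comp ((ContinuousLinearMap.fst ℂ _ _).comp eT))) +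
  (ContinuousLinearMap.inr ℂ X (SS X Y)).comp (
    (ContinuousLinearMap.inl ℂ (TX X) (TX Y)).comp
      ((ContinuousLinearMap.snd ℂ X (TX X)).comp
        ((BO U₁ U₂ c ξ).comp ((ContinuousLinearMap.fst ℂ _ _).comp eT))) +
    (ContinuousLinearMap.inr ℂ (TX X) (TX Y)).comp
      ((ContinuousLinearMap.snd ℂ _ _).comp eT))

/-- domain side, inverse -/
def QX (ξ : ℝ × ℝ) : X × SS X Y →L[ℂ] TT X Y :=
  eS.comp (((BI U₁ U₂ c ξ).comp ((ContinuousLinearMap.fst ℂ X (SS X Y)).prod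
    ((ContinuousLinearMap.fst ℂ _ _).comp (ContinuousLinearMap.snd ℂ X (SS X Y))))).prod
    ((ContinuousLinearMap.snd ℂ _ _).comp (ContinuousLinearMap.snd ℂ X (SS X Y))))

/-- codomain side: `TT → Y × SS` -/
def PY (ξ : ℝ × ℝ) : TT X Y →L[ℂ] Y × SS X Y :=
  ((ContinuousLinearMap.fst ℂ Y (TX Y)).comp
    ((BO V₁ V₂ c ξ).comp ((ContinuousLinearMap.snd ℂ _ _).comp eT))).prod
  (((ContinuousLinearMap.fst ℂ _ _).comp eT).prod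
    ((ContinuousLinearMap.snd ℂ Y (TX Y)).comp
        ((BO V₁ V₂ c ξ).comp ((ContinuousLinearMap.snd ℂ _ _).comp eT))))

/-- codomain side, inverse -/
def QY (ξ : ℝ × ℝ) : Y × SS X Y →L[ℂ] TT X Y :=
  eS.comp ((ContinuousLinearMap.inl ℂ (TX X) (TX Y)).comp
    ((ContinuousLinearMap.fst ℂ _ _).comp (ContinuousLinearMap.snd ℂ Y (SS X Y))) +
    (ContinuousLinearMap.inr ℂ (TX X) (TX Y)).comp
    ((BI V₁ V₂ c ξ).comp ((ContinuousLinearMap.fst ℂ Y (SS X Y)).prod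
    ((ContinuousLinearMap.snd ℂ _ _).comp (ContinuousLinearMap.snd ℂ Y (SS X Y))))))

theorem PX_apply (ξ : ℝ × ℝ) (z : TT X Y) : PX U₁ U₂ c ξ z =
    ((BO U₁ U₂ c ξ (eT z).1).1, ((BO U₁ U₂ c ξ (eT z).1).2, (eT z).2)) := by
  simp [PX]

theorem QX_apply (ξ : ℝ × ℝ) (ψ : X) (s : SS X Y) : QX U₁ U₂ c ξ (ψ, s) =
    eS (BI U₁ U₂ c ξ (ψ, s.1), s.2) := rfl

theorem PY_apply (ξ : ℝ × ℝ) (z : TT X Y) : PY V₁ V₂ c ξ z =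
    ((BO V₁ V₂ c ξ (eT z).2).1, ((eT z).1, (BO V₁ V₂ c ξ (eT z).2).2)) := rfl

theorem QY_apply (ξ : ℝ × ℝ) (y : Y) (s : SS X Y) : QY V₁ V₂ c ξ (y, s) =
    eS (s.1, BI V₁ V₂ c ξ (y, s.2)) := by
  simp [QY, ← map_add]

theorem continuous_PX : Continuous (PX (Y := Y) U₁ U₂ c) := by
  unfold PX
  have h : Continuous fun ξ => (BO U₁ U₂ c ξ).comp
      ((ContinuousLinearMap.fst ℂ (TX X) (TX Y)).comp (eT (X := X) (Y := Y))) :=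
    (continuous_BO U₁ U₂ c).clm_comp continuous_const
  exact (continuous_const.clm_comp (continuous_const.clm_comp h)).add
    (continuous_const.clm_comp ((continuous_const.clm_comp (continuous_const.clm_comp h)).add
      continuous_const))

theorem continuous_QY : Continuous (QY (X := X) V₁ V₂ c) := by
  unfold QY
  exact continuous_const.clm_comp (continuous_const.add (continuous_const.clm_comp
    ((continuous_BI V₁ V₂ c).clm_comp continuous_const)))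

theorem PX_QX (ξ : ℝ × ℝ) (z : X × SS X Y) : PX U₁ U₂ c ξ (QX U₁ U₂ c ξ z) = z := by
  obtain ⟨ψ, s⟩ := z
  rw [PX_apply, QX_apply, eT_eS, BO_BI]

theorem QX_PX (ξ : ℝ × ℝ) (z : TT X Y) : QX U₁ U₂ c ξ (PX U₁ U₂ c ξ z) = z := by
  rw [PX_apply, QX_apply]
  have : BI U₁ U₂ c ξ ((BO U₁ U₂ c ξ (eT z).1).1, (BO U₁ U₂ c ξ (eT z).1).2) = (eT z).1 :=
    BI_BO U₁ U₂ c ξ _
  simp only [this]
  exact eS_eT z

theorem PY_QY (ξ : ℝ × ℝ) (z : Y × SS X Y) : PY V₁ V₂ c ξ (QY V₁ V₂ c ξ z) = z := by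
  obtain ⟨y, s⟩ := z
  rw [PY_apply, QY_apply, eT_eS, BO_BI]

theorem QY_PY (ξ : ℝ × ℝ) (z : TT X Y) : QY V₁ V₂ c ξ (PY V₁ V₂ c ξ z) = z := by
  rw [PY_apply, QY_apply]
  have : BI V₁ V₂ c ξ ((BO V₁ V₂ c ξ (eT z).2).1, (BO V₁ V₂ c ξ (eT z).2).2) = (eT z).2 :=
    BI_BO V₁ V₂ c ξ _
  simp only [this]
  exact eS_eT z

end

/-- the stabilised operator -/
def st (D : X →L[ℂ] Y) : X × SS X Y →L[ℂ] Y × SS X Y :=
  (ContinuousLinearMap.inl ℂ Y (SS X Y)).comp (D.comp (ContinuousLinearMap.fst ℂ X (SS X Y))) +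
    (ContinuousLinearMap.inr ℂ Y (SS X Y)).comp (ContinuousLinearMap.snd ℂ X (SS X Y))

theorem st_apply (D : X →L[ℂ] Y) (z : X × SS X Y) : st D z = (D z.1, z.2) := by
  simp [st]

section

variable (U₁ U₂ : X ≃L[ℂ] X) (V₁ V₂ : Y ≃L[ℂ] Y) (c : ℝ × ℝ)

/-- the periodic operator -/
def DD (D : X →L[ℂ] Y) (ξ : ℝ × ℝ) : TT X Y →L[ℂ] TT X Y :=
  (QY V₁ V₂ c ξ).comp ((st D).comp (PX U₁ U₂ c ξ))

/-- the periodic nonlinear term -/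
def KK (K : X → Y) (ξ : ℝ × ℝ) (z : TT X Y) : TT X Y :=
  QY V₁ V₂ c ξ (K (PX U₁ U₂ c ξ z).1, 0)

theorem DD_apply (D : X →L[ℂ] Y) (ξ : ℝ × ℝ) (z : TT X Y) : DD U₁ U₂ V₁ V₂ c D ξ z =
    QY V₁ V₂ c ξ (D (PX U₁ U₂ c ξ z).1, (PX U₁ U₂ c ξ z).2) := by
  show QY V₁ V₂ c ξ (st D (PX U₁ U₂ c ξ z)) = _
  rw [st_apply]

theorem PY_DD (D : X →L[ℂ] Y) (ξ : ℝ × ℝ) (z : TT X Y) :
    PY V₁ V₂ c ξ (DD U₁ U₂ V₁ V₂ c D ξ z) = (D (PX U₁ U₂ c ξ z).1, (PX U₁ U₂ c ξ z).2) := by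
  rw [DD_apply, PY_QY]

theorem PY_KK (K : X → Y) (ξ : ℝ × ℝ) (z : TT X Y) :
    PY V₁ V₂ c ξ (KK U₁ U₂ V₁ V₂ c K ξ z) = (K (PX U₁ U₂ c ξ z).1, 0) := by
  rw [KK, PY_QY]

theorem PX_inj {ξ : ℝ × ℝ} {z : TT X Y} (h : PX U₁ U₂ c ξ z = 0) : z = 0 := by
  rw [← QX_PX U₁ U₂ c ξ z, h, map_zero]

/-- a solution downstairs -/
theorem sol {D : X →L[ℂ] Y} {K : X → Y} {ξ : ℝ × ℝ} {z : TT X Y} (hz : z ≠ 0)
    (h0 : DD U₁ U₂ V₁ V₂ c D ξ z + KK U₁ U₂ V₁ V₂ c K ξ z = 0) :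
    ∃ ψ, ψ ≠ 0 ∧ D ψ + K ψ = 0 := by
  have h1 := congrArg (PY V₁ V₂ c ξ) h0
  rw [map_add, PY_DD, PY_KK, map_zero] at h1
  refine ⟨(PX U₁ U₂ c ξ z).1, fun hψ => hz ?_, congrArg Prod.fst h1⟩
  have h2 := congrArg Prod.snd h1
  simp only [Prod.snd_add, Prod.snd_zero, add_zero] at h2
  exact PX_inj U₁ U₂ c (Prod.ext hψ h2)

/-- the estimate, abstractly -/
theorem est_abs {T S X Y : Type*} [NormedAddCommGroup T] [NormedSpace ℂ T]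
    [NormedAddCommGroup S] [NormedSpace ℂ S] [NormedAddCommGroup X] [NormedSpace ℂ X]
    [NormedAddCommGroup Y] [NormedSpace ℂ Y] (P : T →L[ℂ] X × S) (Q : X × S →L[ℂ] T)
    (P' : T →L[ℂ] Y × S) (Q' : Y × S →L[ℂ] T) (hQP : ∀ z, Q (P z) = z)
    (hPQ' : ∀ z, P' (Q' z) = z) (D : X →L[ℂ] Y) (D' : T →L[ℂ] T)
    (hD' : ∀ z, P' (D' z) = (D (P z).1, (P z).2))
    (h : ∃ C > 0, ∃ j : X →L[ℂ] Y, IsCompactOperator j ∧ ∀ ψ, ‖ψ‖ ≤ C * (‖D ψ‖ + ‖j ψ‖)) :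
    ∃ C > 0, ∃ j : T →L[ℂ] T, IsCompactOperator j ∧ ∀ z, ‖z‖ ≤ C * (‖D' z‖ + ‖j z‖) := by
  obtain ⟨C, hC, j, hj, hb⟩ := h
  set j' : T →L[ℂ] T := (Q'.comp (ContinuousLinearMap.inl ℂ Y S)).comp
    (j.comp ((ContinuousLinearMap.fst ℂ X S).comp P)) with hj'
  have hj'app : ∀ z, j' z = Q' (j (P z).1, 0) := fun z => rfl
  refine ⟨(‖Q‖ + 1) * ((C + 1) * (‖P'‖ + 1)), by positivity, j', ?_, ?_⟩
  · have h1 : IsCompactOperator (j.comp ((ContinuousLinearMap.fst ℂ X S).comp P)) :=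
      hj.comp_clm ((ContinuousLinearMap.fst ℂ X S).comp P)
    exact h1.clm_comp (Q'.comp (ContinuousLinearMap.inl ℂ Y S))
  · intro z
    set w := P z with hw
    have e1 : z = Q w := (hQP z).symm
    have e2 : ‖z‖ ≤ ‖Q‖ * ‖w‖ := by
      conv_lhs => rw [e1]
      exact Q.le_opNorm w
    have e3 : P' (D' z) = (D w.1, w.2) := hD' z
    have e4 : P' (j' z) = (j w.1, 0) := by
      rw [hj'app, hPQ']
    have e5 : ‖((D w.1, w.2) : Y × S)‖ ≤ ‖P'‖ * ‖D' z‖ := by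
      rw [← e3]; exact P'.le_opNorm _
    have e6 : ‖((j w.1, 0) : Y × S)‖ ≤ ‖P'‖ * ‖j' z‖ := by
      rw [← e4]; exact P'.le_opNorm _
    have e7 : ‖D w.1‖ ≤ ‖P'‖ * ‖D' z‖ := (norm_fst_le ((D w.1, w.2) : Y × S)).trans e5
    have e8 : ‖w.2‖ ≤ ‖P'‖ * ‖D' z‖ := (norm_snd_le ((D w.1, w.2) : Y × S)).trans e5
    have e9 : ‖j w.1‖ ≤ ‖P'‖ * ‖j' z‖ := (norm_fst_le ((j w.1, 0) : Y × S)).trans e6
    have e10 := hb w.1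
    have hp : 0 ≤ ‖P'‖ := norm_nonneg _
    have hq : 0 ≤ ‖Q‖ := norm_nonneg _
    have a1 : 0 ≤ ‖D' z‖ := norm_nonneg _
    have a2 : 0 ≤ ‖j' z‖ := norm_nonneg _
    generalize ‖P'‖ = p at *
    generalize ‖Q‖ = q at *
    generalize ‖D' z‖ = u at *
    generalize ‖j' z‖ = v at *
    have e11 : ‖w.1‖ ≤ (C + 1) * (p + 1) * (u + v) := by
      calc ‖w.1‖ ≤ C * (‖D w.1‖ + ‖j w.1‖) := e10
        _ ≤ C * (p * u + p * v) := by gcongr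
        _ = C * p * (u + v) := by ring
        _ ≤ (C + 1) * (p + 1) * (u + v) := by gcongr <;> linarith
    have e12 : ‖w.2‖ ≤ (C + 1) * (p + 1) * (u + v) := by
      calc ‖w.2‖ ≤ p * u := e8
        _ = 1 * p * (u + 0) := by ring
        _ ≤ (C + 1) * (p + 1) * (u + v) := by gcongr <;> linarith
    have e13 : ‖w‖ ≤ (C + 1) * (p + 1) * (u + v) := by
      rw [Prod.norm_def]; exact max_le e11 e12
    calc ‖z‖ ≤ q * ‖w‖ := e2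
      _ ≤ (q + 1) * ((C + 1) * (p + 1) * (u + v)) := by gcongr; linarith
      _ = _ := by ring

/-- the estimate -/
theorem est {D : X →L[ℂ] Y} (ξ : ℝ × ℝ) (h : ∃ C > 0, ∃ j : X →L[ℂ] Y, IsCompactOperator j ∧
      ∀ ψ, ‖ψ‖ ≤ C * (‖D ψ‖ + ‖j ψ‖)) :
    ∃ C > 0, ∃ j : TT X Y →L[ℂ] TT X Y, IsCompactOperator j ∧
      ∀ z, ‖z‖ ≤ C * (‖DD U₁ U₂ V₁ V₂ c D ξ z‖ + ‖j z‖) := by
  have h1 : ∀ z : TT X Y, QX U₁ U₂ c ξ (PX U₁ U₂ c ξ z) = z := QX_PX U₁ U₂ c ξ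
  have h2 : ∀ z : Y × SS X Y, PY V₁ V₂ c ξ (QY V₁ V₂ c ξ z) = z := PY_QY V₁ V₂ c ξ
  have h3 : ∀ z : TT X Y, PY V₁ V₂ c ξ (DD U₁ U₂ V₁ V₂ c D ξ z) =
    (D (PX U₁ U₂ c ξ z).1, (PX U₁ U₂ c ξ z).2) := PY_DD U₁ U₂ V₁ V₂ c D ξ
  generalize DD U₁ U₂ V₁ V₂ c D ξ = D' at *
  generalize PX (Y := Y) U₁ U₂ c ξ = P at *
  generalize QX (Y := Y) U₁ U₂ c ξ = Q at *
  generalize PY (X := X) V₁ V₂ c ξ = P' at *
  generalize QY (X := X) V₁ V₂ c ξ = Q' at *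
  exact est_abs (T := TT X Y) (S := SS X Y) P Q P' Q' h1 h2 D D' h3 h

theorem bij {D : X →L[ℂ] Y} (ξ : ℝ × ℝ) (h : Function.Bijective D) :
    Function.Bijective (DD U₁ U₂ V₁ V₂ c D ξ) := by
  obtain ⟨hi, hs⟩ := h
  constructor
  · rw [injective_iff_map_eq_zero]
    intro z hz
    have h1 := PY_DD U₁ U₂ V₁ V₂ c D ξ z
    rw [hz, map_zero] at h1
    have h2 : D (PX U₁ U₂ c ξ z).1 = 0 := (congrArg Prod.fst h1).symm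
    have h3 : (PX U₁ U₂ c ξ z).2 = 0 := (congrArg Prod.snd h1).symm
    exact PX_inj U₁ U₂ c (Prod.ext ((injective_iff_map_eq_zero _).1 hi _ h2) h3)
  · intro y
    obtain ⟨ψ, hψ⟩ := hs (PY V₁ V₂ c ξ y).1
    refine ⟨QX U₁ U₂ c ξ (ψ, (PY V₁ V₂ c ξ y).2), ?_⟩
    rw [DD_apply, PX_QX]
    show QY V₁ V₂ c ξ (D ψ, (PY V₁ V₂ c ξ y).2) = y
    rw [hψ]
    exact QY_PY V₁ V₂ c ξ y

theorem ker {D : X →L[ℂ] Y} (ξ : ℝ × ℝ) {ψ₀ : X} (hker : ∀ ψ, D ψ = 0 ↔ ∃ a : ℂ, ψ = a • ψ₀)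
    (z : TT X Y) : DD U₁ U₂ V₁ V₂ c D ξ z = 0 ↔ ∃ a : ℂ, z = a • QX U₁ U₂ c ξ (ψ₀, 0) := by
  constructor
  · intro hz
    have h1 := PY_DD U₁ U₂ V₁ V₂ c D ξ z
    rw [hz, map_zero] at h1
    have h2 : D (PX U₁ U₂ c ξ z).1 = 0 := (congrArg Prod.fst h1).symm
    have h3 : (PX U₁ U₂ c ξ z).2 = 0 := (congrArg Prod.snd h1).symm
    obtain ⟨a, ha⟩ := (hker _).1 h2
    refine ⟨a, ?_⟩
    rw [← QX_PX U₁ U₂ c ξ z, ← map_smul]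
    congr 1
    exact Prod.ext ha (by rw [h3]; simp)
  · rintro ⟨a, rfl⟩
    rw [DD_apply, map_smul, PX_QX]
    have h1 : D (a • ψ₀) = 0 := (hker _).2 ⟨a, rfl⟩
    have h2 : ((a • ((ψ₀, 0) : X × SS X Y)).1) = a • ψ₀ := rfl
    have h3 : ((a • ((ψ₀, 0) : X × SS X Y)).2) = 0 := smul_zero _
    rw [h2, h3, h1]
    exact map_zero (QY V₁ V₂ c ξ)

theorem rng {D : X →L[ℂ] Y} (ξ : ℝ × ℝ) {ℓ : Y →L[ℂ] ℂ} (hcok : ∀ y : Y, ℓ y = 0 ↔ ∃ ψ, D ψ = y)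
    (z : TT X Y) : ℓ (PY V₁ V₂ c ξ z).1 = 0 ↔ ∃ w, DD U₁ U₂ V₁ V₂ c D ξ w = z := by
  rw [hcok]
  constructor
  · rintro ⟨ψ, hψ⟩
    refine ⟨QX U₁ U₂ c ξ (ψ, (PY V₁ V₂ c ξ z).2), ?_⟩
    rw [DD_apply, PX_QX]
    show QY V₁ V₂ c ξ (D ψ, (PY V₁ V₂ c ξ z).2) = z
    rw [hψ]
    exact QY_PY V₁ V₂ c ξ z
  · rintro ⟨w, rfl⟩
    exact ⟨(PX U₁ U₂ c ξ w).1, by rw [PY_DD]⟩

end

/-- the cokernel in a Hilbert space, from a functional -/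
theorem cok {T : Type} [NormedAddCommGroup T] [InnerProductSpace ℂ T] {A : T →L[ℂ] T} {φ₀ : T}
    (hrange : ∀ z : T, inner ℂ φ₀ z = 0 ↔ ∃ w, A w = z) (y : T) :
    (∀ ψ, inner ℂ y (A ψ) = 0) ↔ ∃ a : ℂ, y = a • φ₀ := by
  constructor
  · intro hy
    by_cases hφz : φ₀ = 0
    · have hy0 : inner ℂ y y = (0 : ℂ) := by
        obtain ⟨w, hw⟩ := (hrange y).1 (by rw [hφz, inner_zero_left])
        have := hy w
        rwa [hw] at this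
      exact ⟨0, by rw [zero_smul]; exact inner_self_eq_zero.1 hy0⟩
    · have hφφ : inner ℂ φ₀ φ₀ ≠ (0 : ℂ) := inner_self_ne_zero.2 hφz
      set a : ℂ := inner ℂ φ₀ y / inner ℂ φ₀ φ₀ with ha
      refine ⟨a, ?_⟩
      have h1 : inner ℂ φ₀ (y - a • φ₀) = 0 := by
        rw [inner_sub_right, inner_smul_right, ha, div_mul_cancel₀ _ hφφ, sub_self]
      obtain ⟨w, hw⟩ := (hrange _).1 h1
      have h2 := hy w
      rw [hw] at h2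
      have h3 : inner ℂ (y - a • φ₀) (y - a • φ₀) = (0 : ℂ) := by
        rw [inner_sub_left, h2, inner_smul_left, h1, mul_zero, sub_zero]
      exact sub_eq_zero.1 (inner_self_eq_zero.1 h3)
  · rintro ⟨a, rfl⟩ ψ
    rw [inner_smul_left, (hrange _).2 ⟨ψ, rfl⟩, mul_zero]

section

variable {U₁ U₂ : X ≃L[ℂ] X} {V₁ V₂ : Y ≃L[ℂ] Y} (c : ℝ × ℝ)
  (hU : ∀ ψ, U₁ (U₂ ψ) = U₂ (U₁ ψ)) (hV : ∀ y, V₁ (V₂ y) = V₂ (V₁ y))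

include hU in
theorem PX_per1 (ξ : ℝ × ℝ) (z : TT X Y) : PX U₁ U₂ c (ξ + (1, 0)) z =
    (U₁ (PX U₁ U₂ c ξ z).1, (PX U₁ U₂ c ξ z).2) := by
  rw [PX_apply, PX_apply, BO_per1 c hU]

theorem PX_per2 (ξ : ℝ × ℝ) (z : TT X Y) : PX U₁ U₂ c (ξ + (0, 1)) z =
    (U₂ (PX U₁ U₂ c ξ z).1, (PX U₁ U₂ c ξ z).2) := by
  rw [PX_apply, PX_apply, BO_per2 c]

include hV in
theorem QY_per1 (ξ : ℝ × ℝ) (y : Y) (s : SS X Y) :
    QY V₁ V₂ c (ξ + (1, 0)) (V₁ y, s) = QY V₁ V₂ c ξ (y, s) := by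
  rw [QY_apply, QY_apply, BI_per1 c hV]

theorem QY_per2 (ξ : ℝ × ℝ) (y : Y) (s : SS X Y) :
    QY V₁ V₂ c (ξ + (0, 1)) (V₂ y, s) = QY V₁ V₂ c ξ (y, s) := by
  rw [QY_apply, QY_apply, BI_per2 c]

include hU hV in
theorem DD_per1 {D D' : X →L[ℂ] Y} {ξ : ℝ × ℝ} (h : ∀ ψ, D' (U₁ ψ) = V₁ (D ψ)) :
    DD U₁ U₂ V₁ V₂ c D' (ξ + (1, 0)) = DD U₁ U₂ V₁ V₂ c D ξ := by
  refine ContinuousLinearMap.ext fun z => ?_
  rw [DD_apply, DD_apply, PX_per1 c hU]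
  show QY V₁ V₂ c (ξ + (1, 0)) (D' (U₁ (PX U₁ U₂ c ξ z).1), (PX U₁ U₂ c ξ z).2) = _
  rw [h, QY_per1 c hV]

theorem DD_per2 {D D' : X →L[ℂ] Y} {ξ : ℝ × ℝ} (h : ∀ ψ, D' (U₂ ψ) = V₂ (D ψ)) :
    DD U₁ U₂ V₁ V₂ c D' (ξ + (0, 1)) = DD U₁ U₂ V₁ V₂ c D ξ := by
  refine ContinuousLinearMap.ext fun z => ?_
  rw [DD_apply, DD_apply, PX_per2 c]
  show QY V₁ V₂ c (ξ + (0, 1)) (D' (U₂ (PX U₁ U₂ c ξ z).1), (PX U₁ U₂ c ξ z).2) = _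
  rw [h, QY_per2 c]

include hU hV in
theorem KK_per1 {D D' : X → Y} {ξ : ℝ × ℝ} (h : ∀ ψ, D' (U₁ ψ) = V₁ (D ψ)) (z : TT X Y) :
    KK U₁ U₂ V₁ V₂ c D' (ξ + (1, 0)) z = KK U₁ U₂ V₁ V₂ c D ξ z := by
  rw [KK, KK, PX_per1 c hU]
  show QY V₁ V₂ c (ξ + (1, 0)) (D' (U₁ (PX U₁ U₂ c ξ z).1), 0) = _
  rw [h, QY_per1 c hV]

theorem KK_per2 {D D' : X → Y} {ξ : ℝ × ℝ} (h : ∀ ψ, D' (U₂ ψ) = V₂ (D ψ)) (z : TT X Y) :
    KK U₁ U₂ V₁ V₂ c D' (ξ + (0, 1)) z = KK U₁ U₂ V₁ V₂ c D ξ z := by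
  rw [KK, KK, PX_per2 c]
  show QY V₁ V₂ c (ξ + (0, 1)) (D' (U₂ (PX U₁ U₂ c ξ z).1), 0) = _
  rw [h, QY_per2 c]

variable (U₁ U₂ V₁ V₂)

theorem near : ∀ᶠ h : ℝ × ℝ in 𝓝 0, PX (Y := Y) U₁ U₂ c (c + h) = PX U₁ U₂ c c ∧
    QY (X := X) V₁ V₂ c (c + h) = QY V₁ V₂ c c := by
  have : ∀ᶠ h : ℝ × ℝ in 𝓝 0, h ∈ Metric.closedBall (0 : ℝ × ℝ) (1 / 8) :=
    Metric.closedBall_mem_nhds _ (by norm_num)
  filter_upwards [this] with h hh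
  have hh : ‖(c + h) - c‖ ≤ 1 / 8 := by simpa using hh
  constructor
  · refine ContinuousLinearMap.ext fun z => ?_
    rw [PX_apply, PX_apply, BO_near U₁ U₂ c hh]
  · refine ContinuousLinearMap.ext fun z => ?_
    obtain ⟨y, s⟩ := z
    rw [QY_apply, QY_apply, BI_near V₁ V₂ c hh]

/-- the linear bound near the puncture -/
theorem bigO {A : ℝ × ℝ → X →L[ℂ] Y} (hO : (fun h : ℝ × ℝ => A (c + h) - A c) =O[𝓝 0] fun h => h) :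
    (fun h : ℝ × ℝ => DD U₁ U₂ V₁ V₂ c (A (c + h)) (c + h) - DD U₁ U₂ V₁ V₂ c (A c) c)
      =O[𝓝 0] fun h => h := by
  set P := (QY V₁ V₂ c c).comp (ContinuousLinearMap.inl ℂ Y (SS X Y)) with hP
  set R := (ContinuousLinearMap.fst ℂ X (SS X Y)).comp (PX U₁ U₂ c c) with hR
  have h1 : (fun h : ℝ × ℝ => DD U₁ U₂ V₁ V₂ c (A (c + h)) (c + h) - DD U₁ U₂ V₁ V₂ c (A c) c)
      =ᶠ[𝓝 0] fun h => P.comp ((A (c + h) - A c).comp R) := by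
    filter_upwards [near U₁ U₂ V₁ V₂ c] with h hh
    refine ContinuousLinearMap.ext fun z => ?_
    rw [sub_apply, DD_apply, DD_apply, hh.1, hh.2, ← map_sub]
    show _ = QY V₁ V₂ c c ((A (c + h) - A c) (PX U₁ U₂ c c z).1, 0)
    congr 1
    ext1
    · rfl
    · simp
  refine IsBigO.congr' ?_ h1.symm EventuallyEq.rfl
  refine IsBigO.trans ?_ hO
  refine IsBigO.of_bound (‖P‖ * ‖R‖) (Eventually.of_forall fun h => ?_)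
  calc ‖P.comp ((A (c + h) - A c).comp R)‖ ≤ ‖P‖ * ‖(A (c + h) - A c).comp R‖ :=
        ContinuousLinearMap.opNorm_comp_le _ _
    _ ≤ ‖P‖ * (‖A (c + h) - A c‖ * ‖R‖) := by
        gcongr
        exact ContinuousLinearMap.opNorm_comp_le _ _
    _ = ‖P‖ * ‖R‖ * ‖A (c + h) - A c‖ := by ring

theorem continuous_KK {K : ℝ × ℝ → X → Y} (hK : Continuous (fun p : (ℝ × ℝ) × X => K p.1 p.2)) :
    Continuous (fun p : (ℝ × ℝ) × TT X Y => KK U₁ U₂ V₁ V₂ c (K p.1) p.1 p.2) := by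
  have h1 : Continuous (fun p : (ℝ × ℝ) × TT X Y => PX U₁ U₂ c p.1 p.2) :=
    ((continuous_PX U₁ U₂ c).comp continuous_fst).clm_apply continuous_snd
  have h2 : Continuous (fun p : (ℝ × ℝ) × TT X Y => K p.1 (PX U₁ U₂ c p.1 p.2).1) :=
    hK.comp (continuous_fst.prodMk (continuous_fst.comp h1))
  exact ((continuous_QY V₁ V₂ c).comp continuous_fst).clm_apply (h2.prodMk continuous_const)

theorem KK_smul {K : X → Y} {a : ℂ} (h : ∀ ψ, K (a • ψ) = a • K ψ) (ξ : ℝ × ℝ) (z : TT X Y) :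
    KK U₁ U₂ V₁ V₂ c K ξ (a • z) = a • KK U₁ U₂ V₁ V₂ c K ξ z := by
  rw [KK, KK, map_smul]
  show QY V₁ V₂ c ξ (K (a • (PX U₁ U₂ c ξ z).1), (0 : SS X Y)) = _
  rw [h, ← map_smul]
  congr 1
  exact Prod.ext rfl (smul_zero a).symm

theorem compact_KK {K : ℝ × ℝ → X → Y}
    (hKc : ∀ R : ℝ, ∃ S : Set Y, IsCompact S ∧ ∀ ξ ψ, ‖ξ‖ ≤ R → ‖ψ‖ ≤ R → K ξ ψ ∈ S)
    (h1 : ∀ ξ z, KK U₁ U₂ V₁ V₂ c (K (ξ + (1, 0))) (ξ + (1, 0)) z =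
      KK U₁ U₂ V₁ V₂ c (K ξ) ξ z)
    (h2 : ∀ ξ z, KK U₁ U₂ V₁ V₂ c (K (ξ + (0, 1))) (ξ + (0, 1)) z =
      KK U₁ U₂ V₁ V₂ c (K ξ) ξ z) (R : ℝ) :
    ∃ S : Set (TT X Y), IsCompact S ∧ ∀ ξ z, ‖z‖ ≤ R → KK U₁ U₂ V₁ V₂ c (K ξ) ξ z ∈ S := by
  obtain ⟨M, hM⟩ := H350.isCompact_sq.exists_bound_of_continuousOn
    (f := fun ξ => PX (Y := Y) U₁ U₂ c ξ) (continuous_PX U₁ U₂ c).continuousOn
  have hM0 : 0 ≤ M := (norm_nonneg _).trans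
    (hM (0, 0) ⟨⟨le_rfl, zero_le_one⟩, ⟨le_rfl, zero_le_one⟩⟩)
  obtain ⟨S, hS, hKS⟩ := hKc (max 1 (M * |R|))
  refine ⟨(fun p : (ℝ × ℝ) × Y => QY V₁ V₂ c p.1 (p.2, 0)) '' (H350.sq ×ˢ S),
    (H350.isCompact_sq.prod hS).image ?_, ?_⟩
  · exact ((continuous_QY V₁ V₂ c).comp continuous_fst).clm_apply
      (continuous_snd.prodMk continuous_const)
  · intro ξ z hz
    have hfr := H350.per_fract (fun ξ => KK U₁ U₂ V₁ V₂ c (K ξ) ξ z) (fun ξ => h1 ξ z)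
      (fun ξ => h2 ξ z) ξ
    set η : ℝ × ℝ := (Int.fract ξ.1, Int.fract ξ.2) with hη
    have hηs : η ∈ H350.sq := H350.fract_mem_sq ξ
    have h1 : KK U₁ U₂ V₁ V₂ c (K ξ) ξ z = KK U₁ U₂ V₁ V₂ c (K η) η z := hfr.symm
    rw [h1]
    refine ⟨(η, K η (PX U₁ U₂ c η z).1), ⟨hηs, ?_⟩, rfl⟩
    refine hKS η _ ?_ ?_
    · refine le_trans ?_ (le_max_left _ _)
      rw [Prod.norm_def]
      refine max_le ?_ ?_
      · rw [Real.norm_of_nonneg (Int.fract_nonneg _)]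
        exact (Int.fract_lt_one _).le
      · rw [Real.norm_of_nonneg (Int.fract_nonneg _)]
        exact (Int.fract_lt_one _).le
    · refine le_trans ?_ (le_max_right _ _)
      refine (norm_fst_le _).trans (((PX U₁ U₂ c η).le_opNorm z).trans ?_)
      have h3 : ‖z‖ ≤ |R| := hz.trans (le_abs_self R)
      have h4 := hM η hηs
      gcongr

theorem continuous_DD {D : ℝ → ℝ × ℝ → (X →L[ℂ] Y)}
    (hD : ContinuousOn (fun p : ℝ × (ℝ × ℝ) => D p.1 p.2) (Icc 0 1 ×ˢ univ)) :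
    ContinuousOn (fun p : ℝ × (ℝ × ℝ) => DD U₁ U₂ V₁ V₂ c (D p.1 p.2) p.2) (Icc 0 1 ×ˢ univ) := by
  have h1 : ContinuousOn (fun p : ℝ × (ℝ × ℝ) => st (D p.1 p.2)) (Icc 0 1 ×ˢ univ) := by
    unfold st
    exact (continuousOn_const.clm_comp (hD.clm_comp continuousOn_const)).add continuousOn_const
  exact ((continuous_QY V₁ V₂ c).comp continuous_snd).continuousOn.clm_comp
    (h1.clm_comp ((continuous_PX U₁ U₂ c).comp continuous_snd).continuousOn)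

end

/-- the equivariant theorem from the periodic one -/
theorem fbu2_of_fbu (hF : FBU_statement) : FBU2_statement := by
  intro X Y _ _ _ _ _ _ U₁ U₂ V₁ V₂ hU hV D hD hD1 hD2 hest c hbij ψ₀ ℓ κ hκ hker hcok hlin hO K
    hK hK1 hK2 hKh hKc
  set ℓ' : TT X Y →L[ℂ] ℂ := (ℓ.comp (ContinuousLinearMap.fst ℂ Y (SS X Y))).comp
    (PY V₁ V₂ c c) with hℓ'
  set φ₀ : TT X Y := (InnerProductSpace.toDual ℂ (TT X Y)).symm ℓ' with hφ₀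
  have hφ : ∀ z, inner ℂ φ₀ z = ℓ (PY V₁ V₂ c c z).1 := by
    intro z
    rw [hφ₀, InnerProductSpace.toDual_symm_apply]
    rfl
  obtain ⟨ξ, z, hz, h0⟩ := hF (TT X Y) (TT X Y) (fun s ξ => DD U₁ U₂ V₁ V₂ c (D s ξ) ξ)
    (continuous_DD U₁ U₂ V₁ V₂ c hD)
    (fun s hs ξ => DD_per1 c hU hV (hD1 s hs ξ))
    (fun s hs ξ => DD_per2 c (hD2 s hs ξ))
    (fun s hs ξ => est U₁ U₂ V₁ V₂ c ξ (hest s hs ξ)) c
    (fun ξ hξ => bij U₁ U₂ V₁ V₂ c ξ (hbij ξ hξ)) (QX U₁ U₂ c c (ψ₀, 0)) φ₀ κ hκ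
    (ker U₁ U₂ V₁ V₂ c c hker)
    (cok fun z => by rw [hφ]; exact rng U₁ U₂ V₁ V₂ c c hcok z)
    (by
      refine hlin.congr' ?_ EventuallyEq.rfl
      filter_upwards [near U₁ U₂ V₁ V₂ c] with h hh
      rw [DD_apply, hφ, hh.1, hh.2, PX_QX, PY_QY])
    (bigO U₁ U₂ V₁ V₂ c hO) (fun ξ => KK U₁ U₂ V₁ V₂ c (K ξ) ξ)
    (continuous_KK U₁ U₂ V₁ V₂ c hK)
    (fun ξ z => KK_per1 c hU hV (hK1 ξ) z) (fun ξ z => KK_per2 c (hK2 ξ) z)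
    (fun ξ a z => KK_smul U₁ U₂ V₁ V₂ c (hKh ξ a) ξ z)
    (compact_KK U₁ U₂ V₁ V₂ c hKc (fun ξ z => KK_per1 c hU hV (hK1 ξ) z)
      (fun ξ z => KK_per2 c (hK2 ξ) z))
  obtain ⟨ψ, hψ, h⟩ := sol U₁ U₂ V₁ V₂ c hz h0
  exact ⟨ξ, ψ, hψ, h⟩

/-- `RED2_statement` -/
theorem RED2 : RED2_statement := fun h => fbu2_of_fbu (H350.red h)

end

end Vale.Agent.P247.H880.RB
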