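import Mathlib

/-!
# RED2, part a: bump operators for one monodromy

For an automorphism `U` of `X` and `t₀ : ℝ`, continuous operator valued functions `aa U t₀ i`
(`i = 0, 1`) with `aa U t₀ i (t + 1) ∘ U = aa U t₀ i t`, `∑ i, aa U⁻¹ t₀ i t ∘ aa U t₀ i t = 1`,
constant near `t₀`.
-/

open Set Filter Topology

namespace Vale.Agent.P247.H880.RB

noncomputable section

/-- clamp to `[0, 1]` -/
def cl (x : ℝ) : ℝ := max 0 (min 1 x)

theorem continuous_cl : Continuous cl := by unfold cl; fun_prop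

theorem cl_nonneg (x : ℝ) : 0 ≤ cl x := le_max_left _ _

theorem cl_of_le {x : ℝ} (h : x ≤ 0) : cl x = 0 := by
  unfold cl; rw [max_eq_left]; exact (min_le_right _ _).trans h

theorem cl_of_ge {x : ℝ} (h : 1 ≤ x) : cl x = 1 := by
  unfold cl; rw [min_eq_left h]; norm_num

theorem cl_of_mid {x : ℝ} (h : 0 ≤ x) (h1 : x ≤ 1) : cl x = x := by
  unfold cl; rw [min_eq_right h1, max_eq_right h]

/-- first bump, around the integers -/
def f0 (t : ℝ) : ℝ := Real.sqrt (cl (2 - 8 * |t|))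
/-- second bump, around the half integers -/
def f1 (t : ℝ) : ℝ := Real.sqrt (cl (3 - 8 * |t - 1 / 2|))

theorem continuous_f0 : Continuous f0 := by
  unfold f0
  exact Real.continuous_sqrt.comp (continuous_cl.comp (by fun_prop))

theorem continuous_f1 : Continuous f1 := by
  unfold f1
  exact Real.continuous_sqrt.comp (continuous_cl.comp (by fun_prop))

theorem f0_far {t : ℝ} (h : 1 / 4 ≤ |t|) : f0 t = 0 := by
  rw [f0, cl_of_le (by linarith), Real.sqrt_zero]

theorem f0_near {t : ℝ} (h : |t| ≤ 1 / 8) : f0 t = 1 := by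
  rw [f0, cl_of_ge (by linarith), Real.sqrt_one]

theorem f1_zero {t : ℝ} (h : 3 / 8 ≤ |t - 1 / 2|) : f1 t = 0 := by
  rw [f1, cl_of_le (by linarith), Real.sqrt_zero]

theorem f_sum {x : ℝ} (h0 : 0 ≤ x) (h1 : x ≤ 1) : f0 x ^ 2 + f0 (x - 1) ^ 2 + f1 x ^ 2 = 1 := by
  unfold f0 f1
  rw [Real.sq_sqrt (cl_nonneg _), Real.sq_sqrt (cl_nonneg _), Real.sq_sqrt (cl_nonneg _)]
  rw [abs_of_nonneg h0, abs_of_nonpos (by linarith : x - 1 ≤ 0)]
  rcases le_total x (1 / 8) with h | h
  · rw [cl_of_ge (x := 2 - 8 * x) (by linarith), cl_of_le (x := 2 - 8 * -(x - 1)) (by linarith),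
      abs_of_nonpos (by linarith : x - 1 / 2 ≤ 0), cl_of_le (by linarith)]
    norm_num
  rcases le_total x (1 / 4) with h2 | h2
  · rw [cl_of_mid (x := 2 - 8 * x) (by linarith) (by linarith),
      cl_of_le (x := 2 - 8 * -(x - 1)) (by linarith),
      abs_of_nonpos (by linarith : x - 1 / 2 ≤ 0), cl_of_mid (by linarith) (by linarith)]
    ring
  rcases le_total x (3 / 4) with h3 | h3
  · rw [cl_of_le (x := 2 - 8 * x) (by linarith), cl_of_le (x := 2 - 8 * -(x - 1)) (by linarith)]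
    have : |x - 1 / 2| ≤ 1 / 4 := abs_le.2 ⟨by linarith, by linarith⟩
    rw [cl_of_ge (by linarith)]
    norm_num
  rcases le_total x (7 / 8) with h4 | h4
  · rw [cl_of_le (x := 2 - 8 * x) (by linarith),
      cl_of_mid (x := 2 - 8 * -(x - 1)) (by linarith) (by linarith),
      abs_of_nonneg (by linarith : 0 ≤ x - 1 / 2), cl_of_mid (by linarith) (by linarith)]
    ring
  · rw [cl_of_le (x := 2 - 8 * x) (by linarith), cl_of_ge (x := 2 - 8 * -(x - 1)) (by linarith),
      abs_of_nonneg (by linarith : 0 ≤ x - 1 / 2), cl_of_le (by linarith)]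
    norm_num

theorem f0_mul (x : ℝ) : f0 x * f0 (x - 1) = 0 := by
  rcases le_total (1 / 4) |x| with h | h
  · rw [f0_far h, zero_mul]
  · rw [f0_far (t := x - 1), mul_zero]
    have := abs_le.1 h
    rw [abs_of_nonpos (by linarith : x - 1 ≤ 0)]
    linarith

variable {X : Type*} [NormedAddCommGroup X] [NormedSpace ℂ X]

/-- powers of an automorphism -/
def pw (U : X ≃L[ℂ] X) (n : ℤ) : X →L[ℂ] X := ((U ^ n : X ≃L[ℂ] X) : X →L[ℂ] X)

theorem pw_zero (U : X ≃L[ℂ] X) : pw U 0 = ContinuousLinearMap.id ℂ X := by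
  ext x; simp [pw]

theorem pw_add (U : X ≃L[ℂ] X) (m n : ℤ) : pw U (m + n) = (pw U m).comp (pw U n) := by
  ext x
  simp only [pw, zpow_add, ContinuousLinearMap.comp_apply, ContinuousLinearEquiv.coe_coe]
  rfl

theorem pw_one (U : X ≃L[ℂ] X) : pw U 1 = (U : X →L[ℂ] X) := by
  ext x; simp [pw]

theorem pw_inv (U : X ≃L[ℂ] X) (n : ℤ) : pw U⁻¹ n = pw U (-n) := by
  rw [pw, pw, inv_zpow']

theorem pw_comm (U : X ≃L[ℂ] X) (A : X →L[ℂ] X) (h : ∀ x, A (U x) = U (A x)) (n : ℤ) (x : X) :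
    A (pw U n x) = pw U n (A x) := by
  have h1 : ∀ x, A (pw U (-1) x) = pw U (-1) (A x) := by
    intro x
    have e1 : ∀ y, pw U (-1) (U y) = y := by
      intro y
      have := congrArg (fun T : X →L[ℂ] X => T y) (pw_add U (-1) 1)
      simp only [pw_one, ContinuousLinearMap.comp_apply, neg_add_cancel, pw_zero,
        ContinuousLinearMap.id_apply, ContinuousLinearEquiv.coe_coe] at this
      exact this.symm
    obtain ⟨y, rfl⟩ := U.surjective x
    rw [e1, h, e1]
  induction n using Int.induction_on generalizing x with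
  | zero => simp [pw_zero]
  | succ n ih =>
    rw [pw_add, pw_one]
    simp only [ContinuousLinearMap.comp_apply, ContinuousLinearEquiv.coe_coe]
    rw [ih, h]
  | pred n ih =>
    rw [sub_eq_add_neg, pw_add]
    simp only [ContinuousLinearMap.comp_apply]
    rw [ih, h1]

/-- the bump operators; `n` is the integer part, `x` the fractional part -/
def bu (U : X ≃L[ℂ] X) (i : Fin 2) (n : ℤ) (x : ℝ) : X →L[ℂ] X :=
  if i = 0 then (f0 x : ℂ) • pw U (-n) + (f0 (x - 1) : ℂ) • pw U (-(n + 1))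
  else (f1 x : ℂ) • pw U (-n)

/-- the bump operators -/
def aa (U : X ≃L[ℂ] X) (t₀ : ℝ) (i : Fin 2) (t : ℝ) : X →L[ℂ] X :=
  bu U i ⌊t - t₀⌋ (Int.fract (t - t₀))

theorem bu_succ (U : X ≃L[ℂ] X) (i : Fin 2) (n : ℤ) (x : ℝ) (ψ : X) :
    bu U i (n + 1) x (U ψ) = bu U i n x ψ := by
  have h : ∀ m : ℤ, pw U (-(m + 1)) (U ψ) = pw U (-m) ψ := by
    intro m
    have : pw U (-m) = (pw U (-(m + 1))).comp (pw U 1) := by
      rw [← pw_add]; congr 1; ring
    rw [this, pw_one]
    rfl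
  unfold bu
  split_ifs
  · simp only [add_apply, smul_apply, h]
  · simp only [smul_apply, h]

theorem aa_per (U : X ≃L[ℂ] X) (t₀ : ℝ) (i : Fin 2) (t : ℝ) (ψ : X) :
    aa U t₀ i (t + 1) (U ψ) = aa U t₀ i t ψ := by
  unfold aa
  have h : t + 1 - t₀ = (t - t₀) + 1 := by ring
  rw [h, Int.floor_add_one, Int.fract_add_one, bu_succ]

theorem continuous_bu (U : X ≃L[ℂ] X) (i : Fin 2) (n : ℤ) : Continuous (bu U i n) := by
  unfold bu
  split_ifs
  · exact ((Complex.continuous_ofReal.comp continuous_f0).smul continuous_const).add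
      ((Complex.continuous_ofReal.comp
        (continuous_f0.comp (continuous_id.sub continuous_const))).smul continuous_const)
  · exact (Complex.continuous_ofReal.comp continuous_f1).smul continuous_const

theorem bu_one (U : X ≃L[ℂ] X) (i : Fin 2) (n : ℤ) : bu U i n 1 = bu U i (n + 1) 0 := by
  unfold bu
  split_ifs
  · rw [f0_far (t := 1) (by norm_num), f0_near (t := 1 - 1) (by norm_num),
      f0_near (t := 0) (by norm_num), f0_far (t := 0 - 1) (by norm_num)]
    simp
  · rw [f1_zero (t := 1) (by norm_num), f1_zero (t := 0) (by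
      rw [abs_of_nonpos] <;> norm_num)]
    simp

theorem continuous_aa (U : X ≃L[ℂ] X) (t₀ : ℝ) (i : Fin 2) : Continuous (aa U t₀ i) := by
  have key : Continuous fun u : ℝ => bu U i ⌊u⌋ (Int.fract u) := by
    have hlf : LocallyFinite fun n : ℤ => Icc (n : ℝ) (n + 1) :=
      locallyFinite_Icc_of_tendsto tendsto_intCast_atTop_atTop
        (tendsto_atBot_add_const_right _ _ (tendsto_intCast_atBot_iff.2 tendsto_id))
    refine hlf.continuous ?_ (fun n => isClosed_Icc) (fun n => ?_)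
    · rw [eq_univ_iff_forall]
      intro u
      exact mem_iUnion.2 ⟨⌊u⌋, Int.floor_le u, (Int.lt_floor_add_one u).le⟩
    · have h1 : ContinuousOn (fun u : ℝ => bu U i n (u - n)) (Icc (n : ℝ) (n + 1)) :=
        ((continuous_bu U i n).comp (continuous_id.sub continuous_const)).continuousOn
      refine h1.congr fun u hu => ?_
      rcases hu.2.lt_or_eq with h | h
      · have hfl : ⌊u⌋ = n := Int.floor_eq_iff.2 ⟨hu.1, h⟩
        simp only [Int.fract, hfl]
      · have hfl : ⌊u⌋ = n + 1 := by rw [h]; simp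
        have hfr : Int.fract u = 0 := by rw [Int.fract, hfl, h]; push_cast; ring
        simp only [hfl, hfr]
        rw [← bu_one, h]
        congr 1
        ring
  exact key.comp (continuous_id.sub continuous_const)

theorem aa_near (U : X ≃L[ℂ] X) (t₀ : ℝ) {t : ℝ} (h : |t - t₀| ≤ 1 / 8) :
    aa U t₀ 0 t = ContinuousLinearMap.id ℂ X ∧ aa U t₀ 1 t = 0 := by
  obtain ⟨h1, h2⟩ := abs_le.1 h
  rcases le_total 0 (t - t₀) with h0 | h0
  · have hfl : ⌊t - t₀⌋ = 0 := Int.floor_eq_iff.2 ⟨by simpa using h0, by push_cast; linarith⟩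
    have hfr : Int.fract (t - t₀) = t - t₀ := by rw [Int.fract, hfl]; simp
    unfold aa bu
    rw [hfl, hfr, f0_near h, f0_far (t := t - t₀ - 1) (by
      rw [abs_of_nonpos] <;> linarith), f1_zero (by rw [abs_of_nonpos] <;> linarith)]
    constructor
    · simp [pw_zero]
    · simp
  · rcases h0.lt_or_eq with h0 | h0
    · have hfl : ⌊t - t₀⌋ = -1 := Int.floor_eq_iff.2 ⟨by push_cast; linarith, by
        push_cast; linarith⟩
      have hfr : Int.fract (t - t₀) = t - t₀ + 1 := by rw [Int.fract, hfl]; simp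
      unfold aa bu
      rw [hfl, hfr, f0_far (t := t - t₀ + 1) (by rw [abs_of_nonneg] <;> linarith),
        f0_near (t := t - t₀ + 1 - 1) (by rw [add_sub_cancel_right]; exact h),
        f1_zero (by rw [abs_of_nonneg] <;> linarith)]
      constructor
      · simp [pw_zero]
      · simp
    · unfold aa bu
      rw [h0]
      simp only [Int.floor_zero, Int.fract_zero]
      rw [f0_near (t := 0) (by norm_num), f0_far (t := 0 - 1) (by norm_num), f1_zero (by
        rw [abs_of_nonpos] <;> norm_num)]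
      constructor
      · simp [pw_zero]
      · simp

theorem aa_sum (U : X ≃L[ℂ] X) (t₀ : ℝ) (t : ℝ) (ψ : X) :
    ∑ i, aa U⁻¹ t₀ i t (aa U t₀ i t ψ) = ψ := by
  unfold aa
  set n := ⌊t - t₀⌋
  set x := Int.fract (t - t₀) with hx
  have h0 : 0 ≤ x := Int.fract_nonneg _
  have h1 : x ≤ 1 := (Int.fract_lt_one _).le
  have hs := f_sum h0 h1
  have hm := f0_mul x
  have hc : ∀ m : ℤ, pw U m (pw U (-m) ψ) = ψ := by
    intro m
    have := congrArg (fun T : X →L[ℂ] X => T ψ) (pw_add U m (-m))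
    simp only [add_neg_cancel, pw_zero, ContinuousLinearMap.id_apply,
      ContinuousLinearMap.comp_apply] at this
    exact this.symm
  rw [Fin.sum_univ_two]
  simp only [bu, pw_inv, neg_neg, if_true, one_ne_zero, if_false, add_apply, smul_apply, map_add,
    map_smul, hc, smul_add]
  have hm' : (f0 x : ℂ) * (f0 (x - 1) : ℂ) = 0 := by exact_mod_cast hm
  have hm2 : (f0 (x - 1) : ℂ) * (f0 x : ℂ) = 0 := by rw [mul_comm]; exact hm'
  simp only [smul_smul, hm', hm2, zero_smul, add_zero, zero_add]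
  rw [← add_smul, ← add_smul]
  have : (f0 x : ℂ) * f0 x + f0 (x - 1) * f0 (x - 1) + f1 x * f1 x = 1 := by
    have : f0 x * f0 x + f0 (x - 1) * f0 (x - 1) + f1 x * f1 x = 1 := by
      simpa only [sq] using hs
    exact_mod_cast this
  rw [this, one_smul]

theorem aa_comm (U : X ≃L[ℂ] X) (t₀ : ℝ) (A : X →L[ℂ] X) (h : ∀ x, A (U x) = U (A x)) (i : Fin 2)
    (t : ℝ) (x : X) : A (aa U t₀ i t x) = aa U t₀ i t (A x) := by
  unfold aa bu
  split_ifs
  · simp only [add_apply, smul_apply, map_add, map_smul, pw_comm U A h]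
  · simp only [smul_apply, map_smul, pw_comm U A h]

theorem aa_inv_per (U : X ≃L[ℂ] X) (t₀ : ℝ) (i : Fin 2) (t : ℝ) (ψ : X) :
    aa U⁻¹ t₀ i (t + 1) ψ = U (aa U⁻¹ t₀ i t ψ) := by
  have h := aa_per U⁻¹ t₀ i t (U ψ)
  have h2 : (U⁻¹ : X ≃L[ℂ] X) (U ψ) = ψ := U.symm_apply_apply ψ
  rw [h2] at h
  rw [h]
  refine (aa_comm U⁻¹ t₀ (U : X →L[ℂ] X) (fun x => ?_) i t ψ).symm
  have e1 : (U : X →L[ℂ] X) ((U⁻¹ : X ≃L[ℂ] X) x) = x := U.apply_symm_apply x
  have e2 : (U⁻¹ : X ≃L[ℂ] X) ((U : X →L[ℂ] X) x) = x := U.symm_apply_apply x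
  rw [e1, e2]

end

end Vale.Agent.P247.H880.RB
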