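import Mathlib

/-!
# RED2, part b: diagonal operators and shifts on `ℓ²(ℕ, E)`
-/

open Set Filter Topology
open scoped ENNReal

namespace Vale.Agent.P247.H880.RB

set_option linter.unusedSectionVars false

noncomputable section

variable (E : Type*) [NormedAddCommGroup E] [InnerProductSpace ℂ E] [CompleteSpace E]

/-- square summable sequences in `E` -/
abbrev L2 : Type _ := lp (fun _ : ℕ => E) 2

variable {E}

theorem two_real : (2 : ℝ≥0∞).toReal = 2 := by simp

/-- a norm bound from pointwise bounds along an injection -/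
theorem mem_of_bound {f : ℕ → E} {g : L2 E} {C : ℝ} (hC : 0 ≤ C) (h : ∀ n, ‖f n‖ ≤ C * ‖g n‖) :
    Memℓp f 2 ∧ ∑' n, ‖f n‖ ^ (2 : ℝ) ≤ (C * ‖g‖) ^ (2 : ℝ) := by
  have hg : Summable fun n => ‖g n‖ ^ (2 : ℝ) := by
    have := (lp.memℓp g).summable (by simp)
    simpa using this
  have hg2 : ∑' n, ‖g n‖ ^ (2 : ℝ) = ‖g‖ ^ (2 : ℝ) := by
    have := lp.norm_rpow_eq_tsum (p := 2) (by simp) g
    simpa using this.symm
  have hb : ∀ n, ‖f n‖ ^ (2 : ℝ) ≤ C ^ (2 : ℝ) * ‖g n‖ ^ (2 : ℝ) := by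
    intro n
    rw [← Real.mul_rpow hC (norm_nonneg _)]
    exact Real.rpow_le_rpow (norm_nonneg _) (h n) (by norm_num)
  have hs : Summable fun n => ‖f n‖ ^ (2 : ℝ) :=
    Summable.of_nonneg_of_le (fun n => Real.rpow_nonneg (norm_nonneg _) _) hb (hg.mul_left _)
  refine ⟨memℓp_gen (by simpa using hs), ?_⟩
  calc ∑' n, ‖f n‖ ^ (2 : ℝ) ≤ ∑' n, C ^ (2 : ℝ) * ‖g n‖ ^ (2 : ℝ) :=
        hs.tsum_le_tsum hb (hg.mul_left _)
    _ = (C * ‖g‖) ^ (2 : ℝ) := by
        rw [tsum_mul_left, hg2, Real.mul_rpow hC (norm_nonneg _)]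

theorem norm_le_of_sum {f : L2 E} {C : ℝ} (hC : 0 ≤ C)
    (h : ∑' n, ‖f n‖ ^ (2 : ℝ) ≤ C ^ (2 : ℝ)) : ‖f‖ ≤ C := by
  have h1 : ‖f‖ ^ (2 : ℝ) = ∑' n, ‖f n‖ ^ (2 : ℝ) := by
    have := lp.norm_rpow_eq_tsum (p := 2) (by simp) f
    simpa using this
  rw [← h1] at h
  exact (Real.rpow_le_rpow_iff (norm_nonneg _) hC (by norm_num)).1 h

/-- the diagonal operator -/
def dg (L : E →L[ℂ] E) : L2 E →L[ℂ] L2 E :=
  LinearMap.mkContinuous
    { toFun := fun t => ⟨fun n => L (t n), (mem_of_bound (g := t) (norm_nonneg L)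
        fun n => L.le_opNorm _).1⟩
      map_add' := fun s t => by ext n; exact map_add L _ _
      map_smul' := fun c t => by ext n; exact map_smul L _ _ } ‖L‖ (fun t =>
        norm_le_of_sum (by positivity) (mem_of_bound (g := t) (norm_nonneg L)
          fun n => L.le_opNorm _).2)

theorem dg_apply (L : E →L[ℂ] E) (t : L2 E) (n : ℕ) : dg L t n = L (t n) := rfl

theorem dg_norm (L : E →L[ℂ] E) : ‖dg L‖ ≤ ‖L‖ :=
  LinearMap.mkContinuous_norm_le _ (norm_nonneg _) _

theorem dg_sub (L M : E →L[ℂ] E) : dg (L - M) = dg L - dg M := by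
  ext t n; rfl

theorem continuous_dg : Continuous (dg : (E →L[ℂ] E) → (L2 E →L[ℂ] L2 E)) := by
  refine (LipschitzWith.of_dist_le_mul (K := 1) fun L M => ?_).continuous
  rw [dist_eq_norm, dist_eq_norm, ← dg_sub]
  simpa using dg_norm (L - M)

theorem summable_sq (g : L2 E) : Summable fun n => ‖g n‖ ^ (2 : ℝ) := by
  have := (lp.memℓp g).summable (by simp)
  simpa using this

theorem norm_sq_eq (g : L2 E) : ‖g‖ ^ (2 : ℝ) = ∑' n, ‖g n‖ ^ (2 : ℝ) := by
  have := lp.norm_rpow_eq_tsum (p := 2) (by simp) g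
  simpa using this

/-- the right shift as a function -/
def rsF (f : ℕ → E) : ℕ → E := fun n => if n = 0 then 0 else f (n - 1)

theorem rs_sum (f : L2 E) : HasSum (fun n => ‖rsF (f : ℕ → E) n‖ ^ (2 : ℝ)) (‖f‖ ^ (2 : ℝ)) := by
  rw [← hasSum_nat_add_iff' 1]
  simp only [rsF, Finset.range_one, Finset.sum_singleton, if_true, norm_zero]
  rw [Real.zero_rpow (by norm_num), sub_zero, norm_sq_eq]
  exact (summable_sq f).hasSum

/-- the right shift -/
def rs : L2 E →L[ℂ] L2 E :=
  LinearMap.mkContinuous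
    { toFun := fun t => ⟨rsF t, memℓp_gen (by simpa using (rs_sum t).summable)⟩
      map_add' := fun s t => by
        ext n
        show rsF (⇑(s + t)) n = rsF s n + rsF t n
        simp only [rsF, lp.coeFn_add, Pi.add_apply]
        split_ifs <;> simp
      map_smul' := fun c t => by
        ext n
        show rsF (⇑(c • t)) n = c • rsF t n
        simp only [rsF, lp.coeFn_smul, Pi.smul_apply]
        split_ifs <;> simp } 1 (fun t =>
        norm_le_of_sum (by positivity) (by rw [one_mul]; exact (rs_sum t).tsum_eq.le))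

theorem rs_zero (t : L2 E) : rs t 0 = 0 := rfl
theorem rs_succ (t : L2 E) (n : ℕ) : rs t (n + 1) = t n := rfl

theorem ls_sum (f : L2 E) : Summable (fun n => ‖f (n + 1)‖ ^ (2 : ℝ)) ∧
    ∑' n, ‖f (n + 1)‖ ^ (2 : ℝ) ≤ ‖f‖ ^ (2 : ℝ) := by
  have h := summable_sq f
  have h1 : Summable (fun n => ‖f (n + 1)‖ ^ (2 : ℝ)) :=
    (summable_nat_add_iff (f := fun n => ‖f n‖ ^ (2 : ℝ)) 1).2 h
  refine ⟨h1, ?_⟩
  rw [norm_sq_eq, h.tsum_eq_zero_add]
  have : 0 ≤ ‖f 0‖ ^ (2 : ℝ) := Real.rpow_nonneg (norm_nonneg _) _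
  linarith

/-- the left shift -/
def ls : L2 E →L[ℂ] L2 E :=
  LinearMap.mkContinuous
    { toFun := fun t => ⟨fun n => t (n + 1), memℓp_gen (by simpa using (ls_sum t).1)⟩
      map_add' := fun s t => by ext n; rfl
      map_smul' := fun c t => by ext n; rfl } 1 (fun t =>
        norm_le_of_sum (by positivity) (by rw [one_mul]; exact (ls_sum t).2))

theorem ls_apply (t : L2 E) (n : ℕ) : ls t n = t (n + 1) := rfl

/-- inclusion at `0` -/
def inn : E →L[ℂ] L2 E := lp.singleContinuousLinearMap ℂ (fun _ : ℕ => E) 2 0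

theorem inn_zero (x : E) : inn x 0 = x := by
  simp [inn]

theorem inn_succ (x : E) (n : ℕ) : inn x (n + 1) = 0 := by
  simp [inn, lp.single_apply]

/-- evaluation at `0` -/
def evv : L2 E →L[ℂ] E := lp.evalCLM ℂ (fun _ : ℕ => E) 2 0

theorem evv_apply (t : L2 E) : evv t = t 0 := rfl

variable {X : Type*} [NormedAddCommGroup X] [InnerProductSpace ℂ X] [CompleteSpace X]

/-- the swindle: `X × ℓ²(E) → ℓ²(E)` -/
def swI (s : X →L[ℂ] E) (r : E →L[ℂ] X) : X × L2 E →L[ℂ] L2 E :=
  (inn.comp s).comp (ContinuousLinearMap.fst ℂ X (L2 E)) +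
    (ContinuousLinearMap.id ℂ (L2 E) - dg (s.comp r) + rs.comp (dg (s.comp r))).comp
      (ContinuousLinearMap.snd ℂ X (L2 E))

/-- its inverse -/
def swO (s : X →L[ℂ] E) (r : E →L[ℂ] X) : L2 E →L[ℂ] X × L2 E :=
  (r.comp evv).prod (ContinuousLinearMap.id ℂ (L2 E) - dg (s.comp r) + ls.comp (dg (s.comp r)))

theorem swI_zero (s : X →L[ℂ] E) (r : E →L[ℂ] X) (z : X × L2 E) :
    swI s r z 0 = s z.1 + (z.2 0 - s (r (z.2 0))) := by
  show (inn (s z.1) + (z.2 - dg (s.comp r) z.2 + rs (dg (s.comp r) z.2)) : L2 E) 0 = _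
  simp only [lp.coeFn_add, lp.coeFn_sub, Pi.add_apply, Pi.sub_apply, inn_zero, dg_apply, rs_zero,
    ContinuousLinearMap.comp_apply, add_zero]

theorem swI_succ (s : X →L[ℂ] E) (r : E →L[ℂ] X) (z : X × L2 E) (n : ℕ) :
    swI s r z (n + 1) = (z.2 (n + 1) - s (r (z.2 (n + 1)))) + s (r (z.2 n)) := by
  show (inn (s z.1) + (z.2 - dg (s.comp r) z.2 + rs (dg (s.comp r) z.2)) : L2 E) (n + 1) = _
  simp only [lp.coeFn_add, lp.coeFn_sub, Pi.add_apply, Pi.sub_apply, inn_succ, dg_apply, rs_succ,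
    ContinuousLinearMap.comp_apply, zero_add]

theorem swO_fst (s : X →L[ℂ] E) (r : E →L[ℂ] X) (t : L2 E) : (swO s r t).1 = r (t 0) := rfl

theorem swO_snd (s : X →L[ℂ] E) (r : E →L[ℂ] X) (t : L2 E) (n : ℕ) :
    (swO s r t).2 n = (t n - s (r (t n))) + s (r (t (n + 1))) := rfl

theorem swI_swO (s : X →L[ℂ] E) (r : E →L[ℂ] X) (h : ∀ x, r (s x) = x) (t : L2 E) :
    swI s r (swO s r t) = t := by
  ext n
  cases n with
  | zero =>
    rw [swI_zero, swO_fst, swO_snd]
    simp only [map_add, map_sub, h]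
    abel
  | succ n =>
    rw [swI_succ, swO_snd, swO_snd]
    simp only [map_add, map_sub, h]
    abel

theorem swO_swI (s : X →L[ℂ] E) (r : E →L[ℂ] X) (h : ∀ x, r (s x) = x) (z : X × L2 E) :
    swO s r (swI s r z) = z := by
  refine Prod.ext ?_ ?_
  · rw [swO_fst, swI_zero]
    simp only [map_add, map_sub, h]
    abel
  · ext n
    cases n with
    | zero =>
      rw [swO_snd, swI_zero, swI_succ]
      simp only [map_add, map_sub, h]
      abel
    | succ n =>
      rw [swO_snd, swI_succ, swI_succ]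
      simp only [map_add, map_sub, h]
      abel

theorem continuous_swI {T : Type*} [TopologicalSpace T] {s : T → X →L[ℂ] E} {r : T → E →L[ℂ] X}
    (hs : Continuous s) (hr : Continuous r) : Continuous fun t => swI (s t) (r t) := by
  unfold swI
  have hp : Continuous fun t => dg ((s t).comp (r t)) := continuous_dg.comp (hs.clm_comp hr)
  exact ((continuous_const.clm_comp hs).clm_comp continuous_const).add
    (((continuous_const.sub hp).add (continuous_const.clm_comp hp)).clm_comp continuous_const)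

theorem continuous_swO {T : Type*} [TopologicalSpace T] {s : T → X →L[ℂ] E} {r : T → E →L[ℂ] X}
    (hs : Continuous s) (hr : Continuous r) : Continuous fun t => swO (s t) (r t) := by
  have hp : Continuous fun t => dg ((s t).comp (r t)) := continuous_dg.comp (hs.clm_comp hr)
  have h : ∀ t, swO (s t) (r t) = (ContinuousLinearMap.inl ℂ X (L2 E)).comp ((r t).comp evv) +
      (ContinuousLinearMap.inr ℂ X (L2 E)).comp (ContinuousLinearMap.id ℂ (L2 E) -
        dg ((s t).comp (r t)) + ls.comp (dg ((s t).comp (r t)))) := by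
    intro t
    ext z <;> simp [swO]
  simp only [h]
  exact (continuous_const.clm_comp (hr.clm_comp continuous_const)).add
    (continuous_const.clm_comp ((continuous_const.sub hp).add (continuous_const.clm_comp hp)))

end

end Vale.Agent.P247.H880.RB
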