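import Vale.Agent.P247.H880.RBa
import Vale.Agent.P247.H880.RBb

/-!
# RED2, part c: trivialisation of a stabilised Hilbert bundle over the two-torus
-/

open Set Filter Topology

namespace Vale.Agent.P247.H880.RB

set_option linter.unusedSectionVars false

noncomputable section

variable (X : Type*) [NormedAddCommGroup X] [InnerProductSpace ℂ X] [CompleteSpace X]

/-- four copies of `X` -/
abbrev E4 : Type _ := PiLp 2 (fun _ : Fin 2 × Fin 2 => X)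

variable {X}

def inc (i : Fin 2 × Fin 2) : X →L[ℂ] E4 X :=
  ((PiLp.continuousLinearEquiv 2 ℂ (fun _ : Fin 2 × Fin 2 => X)).symm :
    ((Fin 2 × Fin 2) → X) →L[ℂ] E4 X).comp
    (ContinuousLinearMap.single ℂ (fun _ : Fin 2 × Fin 2 => X) i)

def prj (i : Fin 2 × Fin 2) : E4 X →L[ℂ] X :=
  (ContinuousLinearMap.proj i : ((Fin 2 × Fin 2) → X) →L[ℂ] X).comp
    ((PiLp.continuousLinearEquiv 2 ℂ (fun _ : Fin 2 × Fin 2 => X)) :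
      E4 X →L[ℂ] ((Fin 2 × Fin 2) → X))

theorem prj_inc (i j : Fin 2 × Fin 2) (x : X) :
    prj i (inc j x) = if i = j then x else 0 := by
  simp only [prj, inc, ContinuousLinearMap.comp_apply, ContinuousLinearEquiv.coe_coe,
    ContinuousLinearEquiv.apply_symm_apply, ContinuousLinearMap.single_apply,
    ContinuousLinearMap.proj_apply, Pi.single_apply]

variable (U₁ U₂ : X ≃L[ℂ] X) (c : ℝ × ℝ)

/-- the embedding of the fibre -/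
def sM (ξ : ℝ × ℝ) : X →L[ℂ] E4 X :=
  ∑ i : Fin 2 × Fin 2, (inc i).comp ((aa U₁ c.1 i.1 ξ.1).comp (aa U₂ c.2 i.2 ξ.2))

/-- its left inverse -/
def rM (ξ : ℝ × ℝ) : E4 X →L[ℂ] X :=
  ∑ i : Fin 2 × Fin 2, ((aa U₂⁻¹ c.2 i.2 ξ.2).comp (aa U₁⁻¹ c.1 i.1 ξ.1)).comp (prj i)

theorem continuous_sM : Continuous (sM U₁ U₂ c) := by
  unfold sM
  refine continuous_finsetSum _ fun i _ => continuous_const.clm_comp ?_
  exact ((continuous_aa U₁ c.1 i.1).comp continuous_fst).clm_comp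
    ((continuous_aa U₂ c.2 i.2).comp continuous_snd)

theorem continuous_rM : Continuous (rM U₁ U₂ c) := by
  unfold rM
  refine continuous_finsetSum _ fun i _ => Continuous.clm_comp ?_ continuous_const
  exact ((continuous_aa U₂⁻¹ c.2 i.2).comp continuous_snd).clm_comp
    ((continuous_aa U₁⁻¹ c.1 i.1).comp continuous_fst)

theorem sM_apply (ξ : ℝ × ℝ) (ψ : X) : sM U₁ U₂ c ξ ψ =
    ∑ i : Fin 2 × Fin 2, inc i (aa U₁ c.1 i.1 ξ.1 (aa U₂ c.2 i.2 ξ.2 ψ)) := by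
  simp [sM, sum_apply]

theorem rM_apply (ξ : ℝ × ℝ) (e : E4 X) : rM U₁ U₂ c ξ e =
    ∑ i : Fin 2 × Fin 2, aa U₂⁻¹ c.2 i.2 ξ.2 (aa U₁⁻¹ c.1 i.1 ξ.1 (prj i e)) := by
  simp [rM, sum_apply]

theorem rM_sM (ξ : ℝ × ℝ) (ψ : X) : rM U₁ U₂ c ξ (sM U₁ U₂ c ξ ψ) = ψ := by
  rw [rM_apply, sM_apply]
  simp only [map_sum, prj_inc]
  have h1 : ∀ i : Fin 2 × Fin 2, ∑ j : Fin 2 × Fin 2, aa U₂⁻¹ c.2 i.2 ξ.2 (aa U₁⁻¹ c.1 i.1 ξ.1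
      (if i = j then aa U₁ c.1 j.1 ξ.1 (aa U₂ c.2 j.2 ξ.2 ψ) else 0)) =
      aa U₂⁻¹ c.2 i.2 ξ.2 (aa U₁⁻¹ c.1 i.1 ξ.1 (aa U₁ c.1 i.1 ξ.1 (aa U₂ c.2 i.2 ξ.2 ψ))) := by
    intro i
    rw [Finset.sum_eq_single i]
    · simp
    · intro j _ hj
      simp [hj.symm]
    · simp
  simp only [h1]
  rw [Fintype.sum_prod_type, Finset.sum_comm]
  simp only [← map_sum, aa_sum]

variable {U₁ U₂} (h12 : ∀ ψ, U₁ (U₂ ψ) = U₂ (U₁ ψ))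

theorem inv_comm {U V : X ≃L[ℂ] X} (h : ∀ ψ, U (V ψ) = V (U ψ)) (ψ : X) :
    (U⁻¹ : X ≃L[ℂ] X) (V ψ) = V ((U⁻¹ : X ≃L[ℂ] X) ψ) := by
  obtain ⟨φ, rfl⟩ := U.surjective ψ
  have e : ∀ x, (U⁻¹ : X ≃L[ℂ] X) (U x) = x := fun x => U.symm_apply_apply x
  rw [← h, e, e]

include h12 in
theorem sM_per1 (ξ : ℝ × ℝ) (ψ : X) :
    sM U₁ U₂ c (ξ + (1, 0)) (U₁ ψ) = sM U₁ U₂ c ξ ψ := by
  rw [sM_apply, sM_apply]
  refine Finset.sum_congr rfl fun i _ => ?_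
  have h1 : aa U₂ c.2 i.2 ξ.2 (U₁ ψ) = U₁ (aa U₂ c.2 i.2 ξ.2 ψ) :=
    (aa_comm U₂ c.2 (U₁ : X →L[ℂ] X) h12 i.2 ξ.2 ψ).symm
  simp only [Prod.fst_add, Prod.snd_add, add_zero]
  rw [h1, aa_per]

theorem sM_per2 (ξ : ℝ × ℝ) (ψ : X) :
    sM U₁ U₂ c (ξ + (0, 1)) (U₂ ψ) = sM U₁ U₂ c ξ ψ := by
  rw [sM_apply, sM_apply]
  refine Finset.sum_congr rfl fun i _ => ?_
  simp only [Prod.fst_add, Prod.snd_add, add_zero]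
  rw [aa_per]

include h12 in
theorem rM_per1 (ξ : ℝ × ℝ) (e : E4 X) :
    rM U₁ U₂ c (ξ + (1, 0)) e = U₁ (rM U₁ U₂ c ξ e) := by
  rw [rM_apply, rM_apply, map_sum]
  refine Finset.sum_congr rfl fun i _ => ?_
  simp only [Prod.fst_add, Prod.snd_add, add_zero]
  rw [aa_inv_per]
  exact (aa_comm U₂⁻¹ c.2 (U₁ : X →L[ℂ] X) (fun x => (inv_comm (fun ψ => (h12 ψ).symm) x).symm)
    i.2 ξ.2 _).symm

theorem rM_per2 (ξ : ℝ × ℝ) (e : E4 X) :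
    rM U₁ U₂ c (ξ + (0, 1)) e = U₂ (rM U₁ U₂ c ξ e) := by
  rw [rM_apply, rM_apply, map_sum]
  refine Finset.sum_congr rfl fun i _ => ?_
  simp only [Prod.fst_add, Prod.snd_add, add_zero]
  rw [aa_inv_per]

variable (U₁ U₂)

theorem aa_near_const (U : X ≃L[ℂ] X) (t₀ : ℝ) {t : ℝ} (h : |t - t₀| ≤ 1 / 8) (i : Fin 2) :
    aa U t₀ i t = aa U t₀ i t₀ := by
  have h1 := aa_near U t₀ h
  have h2 := aa_near U t₀ (t := t₀) (by norm_num)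
  fin_cases i
  · exact h1.1.trans h2.1.symm
  · exact h1.2.trans h2.2.symm

theorem sM_near {ξ : ℝ × ℝ} (h : ‖ξ - c‖ ≤ 1 / 8) : sM U₁ U₂ c ξ = sM U₁ U₂ c c := by
  have h1 : |ξ.1 - c.1| ≤ 1 / 8 := (norm_fst_le (ξ - c)).trans h
  have h2 : |ξ.2 - c.2| ≤ 1 / 8 := (norm_snd_le (ξ - c)).trans h
  unfold sM
  simp only [aa_near_const U₁ c.1 h1, aa_near_const U₂ c.2 h2]

theorem rM_near {ξ : ℝ × ℝ} (h : ‖ξ - c‖ ≤ 1 / 8) : rM U₁ U₂ c ξ = rM U₁ U₂ c c := by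
  have h1 : |ξ.1 - c.1| ≤ 1 / 8 := (norm_fst_le (ξ - c)).trans h
  have h2 : |ξ.2 - c.2| ≤ 1 / 8 := (norm_snd_le (ξ - c)).trans h
  unfold rM
  simp only [aa_near_const U₁⁻¹ c.1 h1, aa_near_const U₂⁻¹ c.2 h2]

/-- the trivialisation -/
def AI (ξ : ℝ × ℝ) : X × L2 (E4 X) →L[ℂ] L2 (E4 X) := swI (sM U₁ U₂ c ξ) (rM U₁ U₂ c ξ)

/-- its inverse -/
def AO (ξ : ℝ × ℝ) : L2 (E4 X) →L[ℂ] X × L2 (E4 X) := swO (sM U₁ U₂ c ξ) (rM U₁ U₂ c ξ)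

theorem continuous_AI : Continuous (AI U₁ U₂ c) :=
  continuous_swI (continuous_sM U₁ U₂ c) (continuous_rM U₁ U₂ c)

theorem continuous_AO : Continuous (AO U₁ U₂ c) :=
  continuous_swO (continuous_sM U₁ U₂ c) (continuous_rM U₁ U₂ c)

theorem AI_AO (ξ : ℝ × ℝ) (t : L2 (E4 X)) : AI U₁ U₂ c ξ (AO U₁ U₂ c ξ t) = t :=
  swI_swO _ _ (rM_sM U₁ U₂ c ξ) t

theorem AO_AI (ξ : ℝ × ℝ) (z : X × L2 (E4 X)) : AO U₁ U₂ c ξ (AI U₁ U₂ c ξ z) = z :=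
  swO_swI _ _ (rM_sM U₁ U₂ c ξ) z

theorem AI_near {ξ : ℝ × ℝ} (h : ‖ξ - c‖ ≤ 1 / 8) : AI U₁ U₂ c ξ = AI U₁ U₂ c c := by
  rw [AI, AI, sM_near U₁ U₂ c h, rM_near U₁ U₂ c h]

theorem AO_near {ξ : ℝ × ℝ} (h : ‖ξ - c‖ ≤ 1 / 8) : AO U₁ U₂ c ξ = AO U₁ U₂ c c := by
  rw [AO, AO, sM_near U₁ U₂ c h, rM_near U₁ U₂ c h]

/-- change of the fibre by an operator -/
theorem swI_change {s s' : X →L[ℂ] E4 X} {r r' : E4 X →L[ℂ] X} {ψ ψ' : X}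
    (h1 : s' ψ' = s ψ) (h2 : ∀ e, s' (r' e) = s (r e)) (t : L2 (E4 X)) :
    swI s' r' (ψ', t) = swI s r (ψ, t) := by
  ext1
  funext n
  cases n with
  | zero => rw [swI_zero, swI_zero]; simp only [h1, h2]
  | succ n => rw [swI_succ, swI_succ]; simp only [h2]

variable {U₁ U₂}

include h12 in
theorem AI_per1 (ξ : ℝ × ℝ) (ψ : X) (t : L2 (E4 X)) :
    AI U₁ U₂ c (ξ + (1, 0)) (U₁ ψ, t) = AI U₁ U₂ c ξ (ψ, t) :=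
  swI_change (sM_per1 c h12 ξ ψ) (fun e => by rw [rM_per1 c h12, sM_per1 c h12]) t

theorem AI_per2 (ξ : ℝ × ℝ) (ψ : X) (t : L2 (E4 X)) :
    AI U₁ U₂ c (ξ + (0, 1)) (U₂ ψ, t) = AI U₁ U₂ c ξ (ψ, t) :=
  swI_change (sM_per2 c ξ ψ) (fun e => by rw [rM_per2 c, sM_per2 c]) t

include h12 in
theorem AO_per1 (ξ : ℝ × ℝ) (t : L2 (E4 X)) :
    AO U₁ U₂ c (ξ + (1, 0)) t = (U₁ (AO U₁ U₂ c ξ t).1, (AO U₁ U₂ c ξ t).2) := by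
  have h : t = AI U₁ U₂ c (ξ + (1, 0)) (U₁ (AO U₁ U₂ c ξ t).1, (AO U₁ U₂ c ξ t).2) := by
    rw [AI_per1 c h12]
    exact (AI_AO U₁ U₂ c ξ t).symm
  conv_lhs => rw [h]
  rw [AO_AI]

theorem AO_per2 (ξ : ℝ × ℝ) (t : L2 (E4 X)) :
    AO U₁ U₂ c (ξ + (0, 1)) t = (U₂ (AO U₁ U₂ c ξ t).1, (AO U₁ U₂ c ξ t).2) := by
  have h : t = AI U₁ U₂ c (ξ + (0, 1)) (U₂ (AO U₁ U₂ c ξ t).1, (AO U₁ U₂ c ξ t).2) := by
    rw [AI_per2 c]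
    exact (AI_AO U₁ U₂ c ξ t).symm
  conv_lhs => rw [h]
  rw [AO_AI]

end

end Vale.Agent.P247.H880.RB
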